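import Vale.Agent.P049.TS.Tilt.Row

/-!
Traces against the tilt: `tr (hT Z^k)` for `k = 1, …, 5`.

Everywhere `Z, Z'` are the two matrices (in either order, `Z + Z' = Zp + Zm`).
-/

set_option linter.unusedSectionVars false

namespace Vale.Agent.P049.TS.Tilt

open Matrix Finset

variable {ι : Type*} [Fintype ι] [DecidableEq ι]

/-! ### general facts -/

theorem abs_trace_le_of_frob {M N : Matrix ι ι ℝ} {x y : ℝ} (hx : 0 ≤ x) (hy : 0 ≤ y)
    (hM : Mat.frob M ≤ x ^ 2) (hN : Mat.frob N ≤ y ^ 2) : |(M * N).trace| ≤ x * y := by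
  refine (Mat.abs_trace_mul_le M N).trans ?_
  have h1 : √(Mat.frob M) ≤ x := by
    rw [← Real.sqrt_sq hx]; exact Real.sqrt_le_sqrt hM
  have h2 : √(Mat.frob N) ≤ y := by
    rw [← Real.sqrt_sq hy]; exact Real.sqrt_le_sqrt hN
  exact mul_le_mul h1 h2 (Real.sqrt_nonneg _) hx

/-- `|tr (e M N)| ≤ r ‖M‖ ‖N‖` -/
theorem abs_trace_op_le {E M N : Matrix ι ι ℝ} {r x y : ℝ} (hr : 0 ≤ r) (hE : Mat.OpB E r)
    (hx : 0 ≤ x) (hy : 0 ≤ y) (hM : Mat.frob M ≤ x ^ 2) (hN : Mat.frob N ≤ y ^ 2) :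
    |(E * M * N).trace| ≤ r * x * y := by
  have h1 : Mat.frob (E * M) ≤ (r * x) ^ 2 := by
    refine (hE.frob_mul_le M).trans ?_
    rw [mul_pow]
    exact mul_le_mul_of_nonneg_left hM (sq_nonneg r)
  exact abs_trace_le_of_frob (mul_nonneg hr hx) hy h1 hN

/-- the sum of a symmetric array against a matrix vanishing off `A` -/
theorem sum_mul_eq_trace {A : Finset (ι × ι)} {h M : Matrix ι ι ℝ}
    (h0 : ∀ p : ι × ι, p ∉ A → h p.1 p.2 = 0) (hM : M.IsSymm) :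
    ∑ p ∈ A, h p.1 p.2 * M p.1 p.2 = (h * M).trace := by
  have e : (h * M).trace = ∑ p : ι × ι, h p.1 p.2 * M p.1 p.2 := by
    rw [Fintype.sum_prod_type]
    simp only [Matrix.trace, Matrix.diag_apply, Matrix.mul_apply]
    refine Finset.sum_congr rfl fun a _ => Finset.sum_congr rfl fun b _ => ?_
    rw [hM.apply a b]
  rw [e]
  refine Finset.sum_subset (Finset.subset_univ A) fun p _ hp => ?_
  rw [h0 p hp, zero_mul]

/-! ### data -/

/-- the hypotheses for one of the two matrices -/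
structure One (F : Finset ι) (Z : Matrix ι ι ℝ) (b t s v : ℝ) : Prop where
  symm : Z.IsSymm
  supp : ∀ a, a ∉ F → ∀ b, Z a b = 0
  T4 : (Z ^ 4).trace ≤ b ^ 4
  T2 : (Z ^ 2).trace ≤ t ^ 2
  S : Sd F Z ≤ s ^ 2
  V : Vd F Z ≤ v ^ 2

/-- the hypotheses for the pair of matrices -/
structure Two (F : Finset ι) (Zp Zm : Matrix ι ι ℝ) (b t s v cw : ℝ) : Prop where
  b0 : 0 ≤ b
  t0 : 0 ≤ t
  s0 : 0 ≤ s
  v0 : 0 ≤ v
  cw0 : 0 ≤ cw
  p : One F Zp b t s v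
  m : One F Zm b t s v
  W : (Zp ^ 2 * Zm ^ 2).trace ≤ cw ^ 2

/-- `Z, Z'` are the two matrices, in either order -/
def IsPair (Zp Zm Z Z' : Matrix ι ι ℝ) : Prop := (Z = Zp ∧ Z' = Zm) ∨ (Z = Zm ∧ Z' = Zp)

theorem One.opB {F : Finset ι} {Z : Matrix ι ι ℝ} {b t s v : ℝ} (h : One F Z b t s v) :
    Mat.OpB Z b := Mat.opB_of_trace_four h.symm h.T4

theorem One.frob1 {F : Finset ι} {Z : Matrix ι ι ℝ} {b t s v : ℝ} (h : One F Z b t s v) :
    Mat.frob Z ≤ t ^ 2 := by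
  rw [Mat.frob_eq_trace_sq h.symm]; exact h.T2

theorem One.frob2 {F : Finset ι} {Z : Matrix ι ι ℝ} {b t s v : ℝ} (h : One F Z b t s v) :
    Mat.frob (Z ^ 2) ≤ (b ^ 2) ^ 2 := by
  rw [← Mat.trace_four_eq_frob h.symm]
  refine h.T4.trans (le_of_eq (by ring))

theorem One.frobk {F : Finset ι} {Z : Matrix ι ι ℝ} {b t s v : ℝ} (h : One F Z b t s v)
    (k : ℕ) : Mat.frob (Z ^ (k + 2)) ≤ (b ^ (k + 2)) ^ 2 := by
  refine (h.opB.frob_pow_le k 2).trans ?_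
  calc b ^ (2 * k) * Mat.frob (Z ^ 2) ≤ b ^ (2 * k) * (b ^ 2) ^ 2 :=
        mul_le_mul_of_nonneg_left h.frob2 (by rw [pow_mul]; positivity)
    _ = _ := by ring

theorem frob_mul_eq_W {Z Z' : Matrix ι ι ℝ} (hZ : Z.IsSymm) (hZ' : Z'.IsSymm) :
    Mat.frob (Z * Z') = (Z ^ 2 * Z' ^ 2).trace := by
  rw [Mat.frob_eq_trace, Matrix.transpose_mul, hZ.eq, hZ'.eq, sq, sq]
  calc (Z' * Z * (Z * Z')).trace = (Z' * (Z * Z * Z')).trace := by simp only [Matrix.mul_assoc]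
    _ = (Z * Z * Z' * Z').trace := by rw [Matrix.trace_mul_comm]
    _ = _ := by simp only [Matrix.mul_assoc]

section

variable {F : Finset ι} {forb : ι → ι → Prop} {Zp Zm Z Z' : Matrix ι ι ℝ}
  {lam b t s v cw Δ : ℝ}

theorem Two.one (h : Two F Zp Zm b t s v cw) (hP : IsPair Zp Zm Z Z') : One F Z b t s v := by
  rcases hP with ⟨rfl, rfl⟩ | ⟨rfl, rfl⟩
  · exact h.p
  · exact h.m

theorem Two.one' (h : Two F Zp Zm b t s v cw) (hP : IsPair Zp Zm Z Z') : One F Z' b t s v := by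
  rcases hP with ⟨rfl, rfl⟩ | ⟨rfl, rfl⟩
  · exact h.m
  · exact h.p

theorem IsPair.add (hP : IsPair Zp Zm Z Z') : Zp + Zm = Z + Z' := by
  rcases hP with ⟨rfl, rfl⟩ | ⟨rfl, rfl⟩
  · rfl
  · exact add_comm _ _

/-- `‖Z Z'‖_F ≤ cw` in both orders -/
theorem Two.frobW (h : Two F Zp Zm b t s v cw) (hP : IsPair Zp Zm Z Z') :
    Mat.frob (Z * Z') ≤ cw ^ 2 := by
  rcases hP with ⟨rfl, rfl⟩ | ⟨rfl, rfl⟩
  · rw [frob_mul_eq_W h.p.symm h.m.symm]; exact h.W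
  · rw [frob_mul_eq_W h.m.symm h.p.symm, Matrix.trace_mul_comm]; exact h.W

theorem IsPair.swap (hP : IsPair Zp Zm Z Z') : IsPair Zp Zm Z' Z := by
  rcases hP with ⟨rfl, rfl⟩ | ⟨rfl, rfl⟩
  · exact Or.inr ⟨rfl, rfl⟩
  · exact Or.inl ⟨rfl, rfl⟩

/-- `‖RT‖_F ≤ (9/4) v` -/
theorem Two.frobR (h : Two F Zp Zm b t s v cw) :
    Mat.frob (RT F Zp Zm) ≤ (9 / 4 * v) ^ 2 := by
  refine (frob_RT_le h.p.symm h.m.symm h.p.supp h.m.supp).trans ?_
  have h1 := h.p.V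
  have h2 := h.m.V
  nlinarith [sq_nonneg v]

/-- the common assumptions on the tilt parameters -/
structure TPar (F : Finset ι) (forb : ι → ι → Prop) (lam Δ : ℝ) : Prop where
  lam0 : 0 < lam
  Δ0 : 0 ≤ Δ
  symm : ∀ a b, forb a b → forb b a
  card : ∀ [∀ x y, Decidable (forb x y)],
    ∀ a ∈ F, ((F.filter fun b => forb a b).card : ℝ) ≤ Δ

/-- the error size `rbs = 32 λ² + (4 (1 + Δ) + 128 + 64 s²) λ` -/
def rbs (lam Δ s : ℝ) : ℝ := 32 * lam ^ 2 + (4 * (1 + Δ) + 128 + 64 * s ^ 2) * lam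

theorem rbs_nonneg (hT : TPar F forb lam Δ) : 0 ≤ rbs lam Δ s := by
  have := hT.lam0
  have := hT.Δ0
  unfold rbs; positivity

theorem Two.opE (h : Two F Zp Zm b t s v cw) (hT' : TPar F forb lam Δ) :
    Mat.OpB (eT F forb Zp Zm lam) (rbs lam Δ s) := by
  classical
  refine (opB_eT hT'.lam0 h.p.symm h.m.symm hT'.symm hT'.Δ0 hT'.card).mono
    (rb_nonneg hT'.lam0.le hT'.Δ0 (Sd_nonneg _ _) (Sd_nonneg _ _)) ?_
  unfold rb rbs
  have h1 := h.p.S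
  have h2 := h.m.S
  have := hT'.lam0
  nlinarith

/-- the master estimate -/
theorem Two.trace_hT (h : Two F Zp Zm b t s v cw) (hT' : TPar F forb lam Δ)
    (hP : IsPair Zp Zm Z Z') {M N : Matrix ι ι ℝ} {x y z : ℝ} (hx : 0 ≤ x) (hy : 0 ≤ y)
    (hz : 0 ≤ z) (hM : Mat.frob M ≤ x ^ 2) (hN : Mat.frob N ≤ y ^ 2)
    (hMN : Mat.frob (M * N) ≤ z ^ 2) :
    |(hT F forb Zp Zm lam * (M * N)).trace
      - lam * ((Z * (M * N)).trace + (Z' * (M * N)).trace)|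
      ≤ 9 / 4 * lam * v * z + rbs lam Δ s * x * y := by
  have e : (hT F forb Zp Zm lam * (M * N)).trace
      - lam * ((Z * (M * N)).trace + (Z' * (M * N)).trace)
      = -(lam * (RT F Zp Zm * (M * N)).trace) - (eT F forb Zp Zm lam * M * N).trace := by
    rw [hT_eq, hP.add]
    rw [Matrix.sub_mul, Matrix.smul_mul, Matrix.sub_mul, Matrix.add_mul, Matrix.trace_sub,
      Matrix.trace_smul, Matrix.trace_sub, Matrix.trace_add, smul_eq_mul, Matrix.mul_assoc]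
    ring
  rw [e]
  have h1 := abs_trace_le_of_frob (M := RT F Zp Zm) (N := M * N)
    (mul_nonneg (by norm_num) h.v0) hz h.frobR hMN
  have h2 := abs_trace_op_le (rbs_nonneg (s := s) hT') (h.opE hT') hx hy hM hN
  refine (abs_sub _ _).trans ?_
  rw [abs_neg, abs_mul, abs_of_pos hT'.lam0]
  have := mul_le_mul_of_nonneg_left h1 hT'.lam0.le
  linarith

end

end Vale.Agent.P049.TS.Tilt
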