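import Vale.Agent.P049.TS.Tilt.Trace

/-!
The tilt terms of the drifts of `T₁, T₂, T₃, T₄`.

`∑_{adm} hT · (Z²)`, `hT · (Z³ - Z)`, `hT · (Z⁴ - Z²)`, `hT · (Z⁵ - Z³)`.
-/

set_option linter.unusedSectionVars false

namespace Vale.Agent.P049.TS.Tilt

open Matrix Finset

variable {ι : Type*} [Fintype ι] [DecidableEq ι]
variable {F : Finset ι} {forb : ι → ι → Prop} {Zp Zm Z Z' : Matrix ι ι ℝ}
  {lam b t s v cw Δ : ℝ}

/-- the sum over admissible pairs against a symmetric array -/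
theorem sum_adm_hT {M : Matrix ι ι ℝ} (hM : M.IsSymm) :
    ∑ p ∈ adm F forb Zp Zm, hT F forb Zp Zm lam p.1 p.2 * M p.1 p.2
      = (hT F forb Zp Zm lam * M).trace :=
  sum_mul_eq_trace (fun _ hp => hT_apply_eq_zero hp) hM

/-! ### traces -/

theorem Two.cross (h : Two F Zp Zm b t s v cw) (hP : IsPair Zp Zm Z Z') (k : ℕ) {y : ℝ}
    (hy : 0 ≤ y) (hk : Mat.frob (Z ^ k) ≤ y ^ 2) :
    |(Z' * Z ^ (k + 1)).trace| ≤ cw * y := by
  rw [pow_succ', ← Matrix.mul_assoc]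
  exact abs_trace_le_of_frob h.cw0 hy (h.frobW hP.swap) hk

theorem Two.abs_T3 (h : Two F Zp Zm b t s v cw) (hP : IsPair Zp Zm Z Z') :
    |(Z ^ 3).trace| ≤ t * b ^ 2 := by
  rw [pow_succ']
  exact abs_trace_le_of_frob h.t0 (sq_nonneg b) (h.one hP).frob1 (h.one hP).frob2

theorem Two.abs_T5 (h : Two F Zp Zm b t s v cw) (hP : IsPair Zp Zm Z Z') :
    |(Z ^ 5).trace| ≤ b ^ 5 := by
  have e : Z ^ 5 = Z ^ 2 * Z ^ 3 := by rw [← pow_add]
  rw [e]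
  have := abs_trace_le_of_frob (sq_nonneg b) (pow_nonneg h.b0 3) (h.one hP).frob2
    ((h.one hP).frobk 1)
  calc _ ≤ _ := this
    _ = _ := by ring

/-- `tr (hT Z)` -/
theorem Two.trace_hT_one (h : Two F Zp Zm b t s v cw) (hT' : TPar F forb lam Δ)
    (hP : IsPair Zp Zm Z Z') : |(hT F forb Zp Zm lam * Z).trace| ≤ 2 * lam * t ^ 2 := by
  have hl := hT'.lam0
  have h1 : Mat.frob (hT F forb Zp Zm lam) ≤ (2 * lam * t) ^ 2 := by
    refine (frob_hT_le hl).trans ?_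
    have h2 := h.p.frob1
    have h3 := h.m.frob1
    nlinarith [sq_nonneg lam]
  have := abs_trace_le_of_frob (mul_nonneg (by positivity) h.t0) h.t0 h1 (h.one hP).frob1
  calc _ ≤ _ := this
    _ = _ := by ring

/-- `tr (hT Z²)` -/
theorem Two.trace_hT_two (h : Two F Zp Zm b t s v cw) (hT' : TPar F forb lam Δ)
    (hP : IsPair Zp Zm Z Z') :
    |(hT F forb Zp Zm lam * Z ^ 2).trace - lam * ((Z ^ 3).trace + (Z' * Z ^ 2).trace)|
      ≤ 9 / 4 * lam * v * b ^ 2 + rbs lam Δ s * t * t := by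
  have := h.trace_hT hT' hP (M := Z) (N := Z) h.t0 h.t0 (sq_nonneg b) (h.one hP).frob1
    (h.one hP).frob1 (by rw [← sq]; exact (h.one hP).frob2)
  rw [← sq Z, ← pow_succ'] at this
  exact this

/-- `tr (hT Z³)` -/
theorem Two.trace_hT_three (h : Two F Zp Zm b t s v cw) (hT' : TPar F forb lam Δ)
    (hP : IsPair Zp Zm Z Z') :
    |(hT F forb Zp Zm lam * Z ^ 3).trace - lam * ((Z ^ 4).trace + (Z' * Z ^ 3).trace)|
      ≤ 9 / 4 * lam * v * b ^ 3 + rbs lam Δ s * t * b ^ 2 := by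
  have := h.trace_hT hT' hP (M := Z) (N := Z ^ 2) h.t0 (sq_nonneg b) (pow_nonneg h.b0 3)
    (h.one hP).frob1 (h.one hP).frob2 (by rw [← pow_succ']; exact (h.one hP).frobk 1)
  rw [← pow_succ', ← pow_succ'] at this
  exact this

/-- `tr (hT Z⁴)` -/
theorem Two.trace_hT_four (h : Two F Zp Zm b t s v cw) (hT' : TPar F forb lam Δ)
    (hP : IsPair Zp Zm Z Z') :
    |(hT F forb Zp Zm lam * Z ^ 4).trace - lam * ((Z ^ 5).trace + (Z' * Z ^ 4).trace)|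
      ≤ 9 / 4 * lam * v * b ^ 4 + rbs lam Δ s * b ^ 2 * b ^ 2 := by
  have := h.trace_hT hT' hP (M := Z ^ 2) (N := Z ^ 2) (sq_nonneg b) (sq_nonneg b)
    (pow_nonneg h.b0 4) (h.one hP).frob2 (h.one hP).frob2
    (by rw [← pow_add]; exact (h.one hP).frobk 2)
  rw [← pow_add, ← pow_succ'] at this
  exact this

/-- `tr (hT Z⁵)` -/
theorem Two.trace_hT_five (h : Two F Zp Zm b t s v cw) (hT' : TPar F forb lam Δ)
    (hP : IsPair Zp Zm Z Z') :
    |(hT F forb Zp Zm lam * Z ^ 5).trace - lam * ((Z ^ 6).trace + (Z' * Z ^ 5).trace)|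
      ≤ 9 / 4 * lam * v * b ^ 5 + rbs lam Δ s * b ^ 2 * b ^ 3 := by
  have := h.trace_hT hT' hP (M := Z ^ 2) (N := Z ^ 3) (sq_nonneg b) (pow_nonneg h.b0 3)
    (pow_nonneg h.b0 5) (h.one hP).frob2 ((h.one hP).frobk 1)
    (by rw [← pow_add]; exact (h.one hP).frobk 3)
  rw [← pow_add, ← pow_succ'] at this
  exact this

/-! ### the four tilt terms -/

/-- **T₁**: `Σ_adm h (Z²)_ab = lam T₃ ± …` -/
theorem Two.tilt_T1 (h : Two F Zp Zm b t s v cw) (hT' : TPar F forb lam Δ)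
    (hP : IsPair Zp Zm Z Z') :
    |∑ p ∈ adm F forb Zp Zm, hT F forb Zp Zm lam p.1 p.2 * (Z ^ 2) p.1 p.2
      - lam * (Z ^ 3).trace|
      ≤ lam * (cw * t) + 9 / 4 * lam * v * b ^ 2 + rbs lam Δ s * t ^ 2 := by
  rw [sum_adm_hT (Mat.IsSymm_pow (h.one hP).symm 2)]
  have h1 := h.trace_hT_two hT' hP
  have h2 := h.cross hP 1 h.t0 (by rw [pow_one]; exact (h.one hP).frob1)
  norm_num at h2
  have h3 := mul_le_mul_of_nonneg_left h2 hT'.lam0.le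
  rw [← abs_of_pos hT'.lam0, ← abs_mul, abs_of_pos hT'.lam0] at h3
  rw [abs_le] at h1 h3 ⊢
  constructor <;> nlinarith [h1.1, h1.2, h3.1, h3.2]

/-- **D** (two-sided): `|Σ_adm h (Z³ - Z)_ab| ≤ …` -/
theorem Two.tilt_T2 (h : Two F Zp Zm b t s v cw) (hT' : TPar F forb lam Δ)
    (hP : IsPair Zp Zm Z Z') :
    |∑ p ∈ adm F forb Zp Zm, hT F forb Zp Zm lam p.1 p.2 * (Z ^ 3 - Z) p.1 p.2|
      ≤ lam * (b ^ 4 + cw * b ^ 2) + 9 / 4 * lam * v * b ^ 3 + rbs lam Δ s * t * b ^ 2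
        + 2 * lam * t ^ 2 := by
  have hs := (h.one hP).symm
  rw [sum_adm_hT ((Mat.IsSymm_pow hs 3).sub hs), Matrix.mul_sub, Matrix.trace_sub]
  have h1 := h.trace_hT_three hT' hP
  have h0 := h.trace_hT_one hT' hP
  have h2 := h.cross hP 2 (sq_nonneg b) (h.one hP).frob2
  norm_num at h2
  have h3 := mul_le_mul_of_nonneg_left h2 hT'.lam0.le
  rw [← abs_of_pos hT'.lam0, ← abs_mul, abs_of_pos hT'.lam0] at h3
  have h4 : (Z ^ 4).trace ≤ b ^ 4 := (h.one hP).T4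
  have h5 : 0 ≤ (Z ^ 4).trace := by
    rw [Mat.trace_four_eq_frob hs]; exact Mat.frob_nonneg _
  have h6 := mul_le_mul_of_nonneg_left h4 hT'.lam0.le
  have h7 := mul_nonneg hT'.lam0.le h5
  rw [abs_le] at h1 h0 h3 ⊢
  constructor <;> nlinarith [h1.1, h1.2, h3.1, h3.2, h0.1, h0.2]

/-- **D** (one-sided): the own part has the good sign -/
theorem Two.tilt_T2_neg (h : Two F Zp Zm b t s v cw) (hT' : TPar F forb lam Δ)
    (hP : IsPair Zp Zm Z Z') :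
    -∑ p ∈ adm F forb Zp Zm, hT F forb Zp Zm lam p.1 p.2 * (Z ^ 3 - Z) p.1 p.2
      ≤ lam * (cw * b ^ 2) + 9 / 4 * lam * v * b ^ 3 + rbs lam Δ s * t * b ^ 2
        + 2 * lam * t ^ 2 := by
  have hs := (h.one hP).symm
  rw [sum_adm_hT ((Mat.IsSymm_pow hs 3).sub hs), Matrix.mul_sub, Matrix.trace_sub]
  have h1 := h.trace_hT_three hT' hP
  have h0 := h.trace_hT_one hT' hP
  have h2 := h.cross hP 2 (sq_nonneg b) (h.one hP).frob2
  norm_num at h2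
  have h3 := mul_le_mul_of_nonneg_left h2 hT'.lam0.le
  rw [← abs_of_pos hT'.lam0, ← abs_mul, abs_of_pos hT'.lam0] at h3
  have h5 : 0 ≤ (Z ^ 4).trace := by
    rw [Mat.trace_four_eq_frob hs]; exact Mat.frob_nonneg _
  have h7 := mul_nonneg hT'.lam0.le h5
  rw [abs_le] at h1 h0 h3
  nlinarith [h1.1, h1.2, h3.1, h3.2, h0.1, h0.2]

/-- **T₃**: `|Σ_adm h (Z⁴ - Z²)_ab| ≤ …` -/
theorem Two.tilt_T3 (h : Two F Zp Zm b t s v cw) (hT' : TPar F forb lam Δ)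
    (hP : IsPair Zp Zm Z Z') :
    |∑ p ∈ adm F forb Zp Zm, hT F forb Zp Zm lam p.1 p.2 * (Z ^ 4 - Z ^ 2) p.1 p.2|
      ≤ lam * (b ^ 5 + cw * b ^ 3 + t * b ^ 2 + cw * t) + 9 / 4 * lam * v * (b ^ 4 + b ^ 2)
        + rbs lam Δ s * (b ^ 4 + t ^ 2) := by
  have hs := (h.one hP).symm
  rw [sum_adm_hT ((Mat.IsSymm_pow hs 4).sub (Mat.IsSymm_pow hs 2)), Matrix.mul_sub,
    Matrix.trace_sub]
  have h1 := h.trace_hT_four hT' hP
  have h0 := h.trace_hT_two hT' hP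
  have h2 := h.cross hP 3 (pow_nonneg h.b0 3) ((h.one hP).frobk 1)
  norm_num at h2
  have h2' := h.cross hP 1 h.t0 (by rw [pow_one]; exact (h.one hP).frob1)
  norm_num at h2'
  have k5 := h.abs_T5 hP
  have k3 := h.abs_T3 hP
  have l2 := mul_le_mul_of_nonneg_left h2 hT'.lam0.le
  have l2' := mul_le_mul_of_nonneg_left h2' hT'.lam0.le
  have l5 := mul_le_mul_of_nonneg_left k5 hT'.lam0.le
  have l3 := mul_le_mul_of_nonneg_left k3 hT'.lam0.le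
  rw [← abs_of_pos hT'.lam0, ← abs_mul, abs_of_pos hT'.lam0] at l2 l2' l5 l3
  rw [abs_le] at h1 h0 l2 l2' l5 l3 ⊢
  constructor <;>
    nlinarith [h1.1, h1.2, h0.1, h0.2, l2.1, l2.2, l2'.1, l2'.2, l5.1, l5.2, l3.1, l3.2]

/-- **T₄** (one-sided): the own part `-lam T₆` has the good sign -/
theorem Two.tilt_T4_neg (h : Two F Zp Zm b t s v cw) (hT' : TPar F forb lam Δ)
    (hP : IsPair Zp Zm Z Z') :
    -∑ p ∈ adm F forb Zp Zm, hT F forb Zp Zm lam p.1 p.2 * (Z ^ 5 - Z ^ 3) p.1 p.2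
      ≤ lam * (cw * b ^ 4 + b ^ 4 + cw * b ^ 2) + 9 / 4 * lam * v * (b ^ 5 + b ^ 3)
        + rbs lam Δ s * (b ^ 5 + t * b ^ 2) := by
  have hs := (h.one hP).symm
  rw [sum_adm_hT ((Mat.IsSymm_pow hs 5).sub (Mat.IsSymm_pow hs 3)), Matrix.mul_sub,
    Matrix.trace_sub]
  have h1 := h.trace_hT_five hT' hP
  have h0 := h.trace_hT_three hT' hP
  have h2 := h.cross hP 4 (pow_nonneg h.b0 4) ((h.one hP).frobk 2)
  norm_num at h2
  have h2' := h.cross hP 2 (sq_nonneg b) (h.one hP).frob2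
  norm_num at h2'
  have l2 := mul_le_mul_of_nonneg_left h2 hT'.lam0.le
  have l2' := mul_le_mul_of_nonneg_left h2' hT'.lam0.le
  rw [← abs_of_pos hT'.lam0, ← abs_mul, abs_of_pos hT'.lam0] at l2 l2'
  have h6 : 0 ≤ (Z ^ 6).trace := by
    have := Mat.trace_pow_even_nonneg hs 3
    simpa using this
  have h7 := mul_nonneg hT'.lam0.le h6
  have h8 := mul_le_mul_of_nonneg_left (h.one hP).T4 hT'.lam0.le
  rw [abs_le] at h1 h0 l2 l2'
  nlinarith [h1.1, h1.2, h0.1, h0.2, l2.1, l2.2, l2'.1, l2'.2]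

/-- `‖hT‖_F ≤ 2 lam t` over any set of pairs -/
theorem Two.sum_hT_sq_le (h : Two F Zp Zm b t s v cw) (hT' : TPar F forb lam Δ)
    (A : Finset (ι × ι)) :
    ∑ p ∈ A, hT F forb Zp Zm lam p.1 p.2 ^ 2 ≤ (2 * lam * t) ^ 2 := by
  have h1 : ∑ p ∈ A, hT F forb Zp Zm lam p.1 p.2 ^ 2 ≤ Mat.frob (hT F forb Zp Zm lam) := by
    unfold Mat.frob
    rw [← Fintype.sum_prod_type (f := fun p : ι × ι => hT F forb Zp Zm lam p.1 p.2 ^ 2)]
    exact Finset.sum_le_sum_of_subset_of_nonneg (Finset.subset_univ A)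
      fun _ _ _ => sq_nonneg _
  refine (h1.trans (frob_hT_le hT'.lam0)).trans ?_
  have h2 := h.p.frob1
  have h3 := h.m.frob1
  nlinarith [sq_nonneg lam]

/-- `Σ_adm |hT| ≤ N · 2 lam t` -/
theorem Two.abs_sum_hT_le (h : Two F Zp Zm b t s v cw) (hT' : TPar F forb lam Δ)
    {A : Finset (ι × ι)} (hA : A ⊆ F ×ˢ F) :
    |∑ p ∈ A, hT F forb Zp Zm lam p.1 p.2| ≤ (F.card : ℝ) * (2 * lam * t) := by
  refine (Finset.abs_sum_le_sum_abs _ _).trans ((sum_abs_le_sqrt_card A _).trans ?_)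
  have h1 : √(A.card : ℝ) ≤ (F.card : ℝ) := by
    rw [← Real.sqrt_sq (Nat.cast_nonneg F.card)]
    refine Real.sqrt_le_sqrt ?_
    have := Finset.card_le_card hA
    rw [Finset.card_product] at this
    calc (A.card : ℝ) ≤ ((F.card * F.card : ℕ) : ℝ) := by exact_mod_cast this
      _ = _ := by push_cast; ring
  have hl := hT'.lam0
  have h2 : √(∑ p ∈ A, hT F forb Zp Zm lam p.1 p.2 ^ 2) ≤ 2 * lam * t := by
    rw [← Real.sqrt_sq (mul_nonneg (by positivity) h.t0 : 0 ≤ 2 * lam * t)]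
    exact Real.sqrt_le_sqrt (h.sum_hT_sq_le hT' A)
  exact mul_le_mul h1 h2 (Real.sqrt_nonneg _) (Nat.cast_nonneg _)

end Vale.Agent.P049.TS.Tilt
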