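import Vale.Agent.P049.TS.Tilt.RowV

/-!
The tilt terms of `S = Σ Z_cc²` and of `W = tr (Z₊² Z₋²)`.
-/

set_option linter.unusedSectionVars false

namespace Vale.Agent.P049.TS.Tilt

open Matrix Finset

variable {ι : Type*} [Fintype ι] [DecidableEq ι]
variable {F : Finset ι} {forb : ι → ι → Prop} {Zp Zm Z Z' : Matrix ι ι ℝ}
  {lam b t s v cw w r Δ : ℝ}

/-- the matrix identity `Z hT Z` -/
theorem ZhZ (hP : IsPair Zp Zm Z Z') (c : ι) :
    (Z * hT F forb Zp Zm lam * Z) c c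
      = lam * ((Z * Z ^ 2) c c + (Z * Z' * Z) c c - (Z * RT F Zp Zm * Z) c c)
        - (Z * eT F forb Zp Zm lam * Z) c c := by
  have e4 : Z * Z ^ 2 = Z * Z * Z := by rw [sq, Matrix.mul_assoc]
  rw [hT_eq, hP.add, e4]
  simp only [Matrix.mul_sub, Matrix.sub_mul, Matrix.mul_smul, Matrix.smul_mul, Matrix.mul_add,
    Matrix.add_mul, Matrix.sub_apply, Matrix.smul_apply, Matrix.add_apply, smul_eq_mul]

/-- `Σ |Z_cc| f_c ≤ s ‖f‖` -/
theorem One.sum_diag_mul_le (h : One F Z b t s v) (hs0 : 0 ≤ s) (f : ι → ℝ) {y : ℝ}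
    (hy : 0 ≤ y) (hf : ∑ c ∈ F, f c ^ 2 ≤ y ^ 2) : ∑ c ∈ F, |Z c c| * |f c| ≤ s * y := by
  refine (sum_abs_mul_le F (fun c => Z c c) f).trans ?_
  have h1 : √(∑ c ∈ F, Z c c ^ 2) ≤ s := by
    rw [← Real.sqrt_sq hs0]; exact Real.sqrt_le_sqrt h.S
  have h2 : √(∑ c ∈ F, f c ^ 2) ≤ y := by
    rw [← Real.sqrt_sq hy]; exact Real.sqrt_le_sqrt hf
  exact mul_le_mul h1 h2 (Real.sqrt_nonneg _) hs0

/-- a diagonal array `f` with `|f_c| ≤ √(w_c α_c)` and `|f_c| ≤ x w_c`: splitting at `w_c ≤ 4` -/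
theorem One.sum_split_le (h : One F Z b t s v) (hs0 : 0 ≤ s) (hv : 0 ≤ v) (f α : ι → ℝ)
    {x y : ℝ} (hx : 0 ≤ x) (hy : 0 ≤ y) (hα : ∀ c, 0 ≤ α c) (hαs : ∑ c ∈ F, α c ≤ y ^ 2)
    (h1 : ∀ c, |f c| ≤ √((Z ^ 2) c c) * √(α c)) (h2 : ∀ c, |f c| ≤ x * (Z ^ 2) c c) :
    ∑ c ∈ F, |Z c c| * |f c| ≤ s * (2 * y) + s * (x * (4 / 3 * v)) := by
  have hV : ∑ c ∈ F, ((Z ^ 2) c c - 1) ^ 2 ≤ v ^ 2 := h.V
  have p1 : ∀ c ∈ F, |Z c c| * |f c| ≤ |Z c c| * |2 * √(α c)|
      + |Z c c| * |x * (4 / 3 * ((Z ^ 2) c c - 1))| := by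
    intro c _
    have hz := abs_nonneg (Z c c)
    by_cases hc : (Z ^ 2) c c ≤ 4
    · have k : √((Z ^ 2) c c) ≤ 2 := by
        rw [show (2 : ℝ) = √(2 ^ 2) by rw [Real.sqrt_sq (by norm_num)]]
        exact Real.sqrt_le_sqrt (by linarith)
      have k2 : |f c| ≤ |2 * √(α c)| :=
        ((h1 c).trans (mul_le_mul_of_nonneg_right k (Real.sqrt_nonneg _))).trans
          (le_abs_self _)
      have := mul_le_mul_of_nonneg_left k2 hz
      have k3 : 0 ≤ |Z c c| * |x * (4 / 3 * ((Z ^ 2) c c - 1))| := by positivity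
      linarith
    · rw [not_le] at hc
      have k2 : |f c| ≤ |x * (4 / 3 * ((Z ^ 2) c c - 1))| :=
        ((h2 c).trans (mul_le_mul_of_nonneg_left (by linarith) hx)).trans (le_abs_self _)
      have := mul_le_mul_of_nonneg_left k2 hz
      have k3 : 0 ≤ |Z c c| * |2 * √(α c)| := by positivity
      linarith
  refine (Finset.sum_le_sum p1).trans ?_
  rw [Finset.sum_add_distrib]
  refine add_le_add ?_ ?_
  · refine h.sum_diag_mul_le hs0 _ (by positivity) ?_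
    have e : ∀ c, (2 * √(α c)) ^ 2 = 4 * α c := fun c => by
      rw [mul_pow, Real.sq_sqrt (hα c)]; ring
    simp only [e]
    rw [← Finset.mul_sum]
    linarith [hαs]
  · refine h.sum_diag_mul_le hs0 _ (by positivity) ?_
    have e : ∀ c, (x * (4 / 3 * ((Z ^ 2) c c - 1))) ^ 2
        = 16 / 9 * x ^ 2 * ((Z ^ 2) c c - 1) ^ 2 := fun c => by ring
    simp only [e]
    rw [← Finset.mul_sum]
    calc _ ≤ 16 / 9 * x ^ 2 * v ^ 2 := mul_le_mul_of_nonneg_left hV (by positivity)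
      _ = _ := by ring

/-- **S**: the tilt term of `Σ_c Z_cc²` -/
theorem Two.tilt_S (h : Two F Zp Zm b t s v cw) (hT' : TPar F forb lam Δ)
    (hP : IsPair Zp Zm Z Z') (hw0 : 0 ≤ w) (hw : ∑ c ∈ F, (Z ^ 2) c c ^ 2 ≤ w ^ 2) :
    |∑ c ∈ F, Z c c * (Z * hT F forb Zp Zm lam * Z) c c|
      ≤ lam * s * (2 * b ^ 2 + 2 * cw + 12 * (b * v) + 3 * v ^ 2) + rbs lam Δ s * s * w := by
  classical
  have hone := h.one hP
  have hs := hone.symm
  have hs' := (h.one' hP).symm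
  have hop := h.opB hP
  have hop' := (h.one' hP).opB
  have hb := h.b0
  have hv := h.v0
  have hcw := h.cw0
  have hs0 := h.s0
  have hl := hT'.lam0
  have hrb := rbs_nonneg (s := s) hT'
  have hw0' : ∀ c, 0 ≤ (Z ^ 2) c c := fun c => Mat.sq_diag_nonneg hs c
  have hrow : ∀ c, √(∑ j, Z c j ^ 2) = √((Z ^ 2) c c) := fun c => by
    rw [Mat.sq_diag_eq_sum hs]
  have hcol : ∀ c, √(∑ j, Z j c ^ 2) = √((Z ^ 2) c c) := fun c => by
    rw [Mat.sq_diag_eq_sum hs]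
    congr 1
    exact Finset.sum_congr rfl fun j _ => by rw [hs.apply c j]
  -- (a)
  have ha : ∑ c ∈ F, |Z c c| * |(Z * Z ^ 2) c c| ≤ s * (2 * b ^ 2) + s * (b * (4 / 3 * v)) := by
    refine hone.sum_split_le hs0 hv _ (fun c => ∑ j, (Z ^ 2) j c ^ 2) hb (sq_nonneg b)
      (fun c => Finset.sum_nonneg fun _ _ => sq_nonneg _) ?_ ?_ ?_
    · refine (Finset.sum_le_sum_of_subset_of_nonneg (Finset.subset_univ F)
        fun _ _ _ => Finset.sum_nonneg fun _ _ => sq_nonneg _).trans ?_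
      have e : ∑ c, ∑ j, (Z ^ 2) j c ^ 2 = Mat.frob (Z ^ 2) := by
        unfold Mat.frob; rw [Finset.sum_comm]
      rw [e]; exact hone.frob2
    · intro c
      have := abs_diag_mul_le Z (Z ^ 2) c
      rwa [hrow c] at this
    · intro c
      have := OpB.abs_diag_one hs hb hop c
      rw [Matrix.mul_assoc, ← sq] at this
      exact this
  -- (b)
  have hbb : ∑ c ∈ F, |Z c c| * |(Z * Z' * Z) c c| ≤ s * (2 * cw) + s * (b * (4 / 3 * v)) := by
    refine hone.sum_split_le hs0 hv _ (fun c => ∑ j, (Z * Z') c j ^ 2) hb hcw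
      (fun c => Finset.sum_nonneg fun _ _ => sq_nonneg _) ?_ ?_ ?_
    · exact (Finset.sum_le_sum_of_subset_of_nonneg (Finset.subset_univ F)
        fun _ _ _ => Finset.sum_nonneg fun _ _ => sq_nonneg _).trans (h.frobW hP)
    · intro c
      have := abs_diag_mul_le (Z * Z') Z c
      rw [hcol c, mul_comm] at this
      exact this
    · intro c
      exact OpB.abs_diag_one hs hb hop' c
  -- (c)
  set B := (gd F Zp Zm)ᶜ with hB
  set Q := gd F Zp Zm with hQ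
  set H := Zp + Zm with hH
  have hHs : H.IsSymm := h.p.symm.add h.m.symm
  have hHop : Mat.OpB H (2 * b) := h.opB_H
  have f1 : Mat.frob (Z * prj B) ≤ (10 / 9 * v) ^ 2 := by
    rw [frob_mul_prj hs]; exact h.sum_bad_w hP
  have f1' : Mat.frob (prj B * Z) ≤ (10 / 9 * v) ^ 2 := by
    rw [frob_prj_mul]; exact h.sum_bad_w hP
  have eR : Z * RT F Zp Zm * Z
      = (Z * prj B) * (H * Z) + (Z * (prj Q * H)) * (prj B * Z) := by
    rw [RT_eq, ← hQ, ← hB, ← hH]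
    simp only [Matrix.mul_add, Matrix.add_mul, Matrix.mul_assoc]
  -- column norms of `H Z` and row norms of `Z Q H`
  have colHZ : ∀ c, √(∑ j, (H * Z) j c ^ 2) ≤ 2 * b * √((Z ^ 2) c c) := by
    intro c
    have k := hHop.sqrt_dot_le (by positivity) (Z *ᵥ (Pi.single c 1))
    rw [← Mat.sq_diag_eq_dot hs c] at k
    refine le_trans (le_of_eq ?_) k
    congr 1
    rw [Matrix.mulVec_mulVec, Mat.mulVec_single]
    simp only [dotProduct, sq]
  have rowZQH : ∀ c, √(∑ j, (Z * (prj Q * H)) c j ^ 2) ≤ 2 * b * √((Z ^ 2) c c) := by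
    intro c
    have o1 : Mat.OpB (H * prj Q) (2 * b * 1) := hHop.mul (opB_prj Q)
    have k := o1.sqrt_dot_le (by positivity) (Z *ᵥ (Pi.single c 1))
    rw [← Mat.sq_diag_eq_dot hs c, mul_one] at k
    refine le_trans (le_of_eq ?_) k
    congr 1
    rw [Matrix.mulVec_mulVec, Mat.mulVec_single]
    simp only [dotProduct]
    refine Finset.sum_congr rfl fun j _ => ?_
    have e1 : (H * prj Q * Z) j c = (Z * (prj Q * H)) c j := by
      have := congrFun (congrFun (show (Z * (prj Q * H))ᵀ = H * prj Q * Z by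
        rw [Matrix.transpose_mul, Matrix.transpose_mul, hs.eq, hHs.eq, (prj_isSymm Q).eq]) j) c
      rw [← this]; rfl
    rw [e1, sq]
  have hc1 : ∑ c ∈ F, |Z c c| * |(Z * RT F Zp Zm * Z) c c|
      ≤ s * (2 * (40 / 9 * (b * v))) + s * (9 / 4 * v * (4 / 3 * v)) := by
    refine hone.sum_split_le hs0 hv _ (fun c => 16 * b ^ 2 * ∑ j, (Z * prj B) c j ^ 2)
      (by positivity) (by positivity)
      (fun c => mul_nonneg (by positivity) (Finset.sum_nonneg fun _ _ => sq_nonneg _)) ?_ ?_ ?_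
    · rw [← Finset.mul_sum]
      have k : ∑ c ∈ F, ∑ j, (Z * prj B) c j ^ 2 ≤ (10 / 9 * v) ^ 2 :=
        (Finset.sum_le_sum_of_subset_of_nonneg (Finset.subset_univ F)
          fun _ _ _ => Finset.sum_nonneg fun _ _ => sq_nonneg _).trans f1
      calc _ ≤ 16 * b ^ 2 * (10 / 9 * v) ^ 2 := mul_le_mul_of_nonneg_left k (by positivity)
        _ = _ := by ring
    · intro c
      rw [eR, Matrix.add_apply]
      have k1 := abs_diag_mul_le (Z * prj B) (H * Z) c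
      have k2 := abs_diag_mul_le (Z * (prj Q * H)) (prj B * Z) c
      have k3 : ∑ j, (prj B * Z) j c ^ 2 = ∑ j, (Z * prj B) c j ^ 2 := by
        refine Finset.sum_congr rfl fun j _ => ?_
        rw [prj_mul_apply, mul_prj_apply, hs.apply c j]
      rw [k3] at k2
      have q := Real.sqrt_nonneg (∑ j, (Z * prj B) c j ^ 2)
      have e1 : √(16 * b ^ 2 * ∑ j, (Z * prj B) c j ^ 2)
          = 4 * b * √(∑ j, (Z * prj B) c j ^ 2) := by
        rw [Real.sqrt_mul (by positivity), show 16 * b ^ 2 = (4 * b) ^ 2 by ring,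
          Real.sqrt_sq (by positivity)]
      rw [e1]
      have k4 := k1.trans (mul_le_mul_of_nonneg_left (colHZ c) q)
      have k5 := k2.trans (mul_le_mul_of_nonneg_right (rowZQH c) q)
      refine (abs_add_le _ _).trans ?_
      nlinarith [k4, k5]
    · intro c
      exact OpB.abs_diag_one hs (by positivity) h.opB_R c
  -- (d)
  have hE : ∑ c ∈ F, |Z c c| * |(Z * eT F forb Zp Zm lam * Z) c c| ≤ rbs lam Δ s * s * w := by
    have p1 : ∀ c ∈ F, |Z c c| * |(Z * eT F forb Zp Zm lam * Z) c c|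
        ≤ rbs lam Δ s * (|Z c c| * |(Z ^ 2) c c|) := by
      intro c _
      have k1 := OpB.abs_diag_one hs hrb (h.opE hT') c
      rw [abs_of_nonneg (hw0' c)]
      calc _ ≤ |Z c c| * (rbs lam Δ s * (Z ^ 2) c c) :=
            mul_le_mul_of_nonneg_left k1 (abs_nonneg _)
        _ = _ := by ring
    refine (Finset.sum_le_sum p1).trans ?_
    rw [← Finset.mul_sum]
    have := mul_le_mul_of_nonneg_left
      (hone.sum_diag_mul_le hs0 (fun c => (Z ^ 2) c c) hw0 hw) hrb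
    calc _ ≤ _ := this
      _ = _ := by ring
  -- assembly
  have p1 : ∀ c ∈ F, |Z c c * (Z * hT F forb Zp Zm lam * Z) c c|
      ≤ lam * (|Z c c| * |(Z * Z ^ 2) c c|) + lam * (|Z c c| * |(Z * Z' * Z) c c|)
        + lam * (|Z c c| * |(Z * RT F Zp Zm * Z) c c|)
        + |Z c c| * |(Z * eT F forb Zp Zm lam * Z) c c| := by
    intro c _
    rw [abs_mul, ZhZ hP c]
    have k : |lam * ((Z * Z ^ 2) c c + (Z * Z' * Z) c c - (Z * RT F Zp Zm * Z) c c)
        - (Z * eT F forb Zp Zm lam * Z) c c|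
        ≤ lam * (|(Z * Z ^ 2) c c| + |(Z * Z' * Z) c c| + |(Z * RT F Zp Zm * Z) c c|)
          + |(Z * eT F forb Zp Zm lam * Z) c c| := by
      refine (abs_sub _ _).trans (add_le_add ?_ le_rfl)
      rw [abs_mul, abs_of_pos hl]
      refine mul_le_mul_of_nonneg_left ?_ hl.le
      exact (abs_sub _ _).trans (add_le_add (abs_add_le _ _) le_rfl)
    have := mul_le_mul_of_nonneg_left k (abs_nonneg (Z c c))
    linarith
  refine (Finset.abs_sum_le_sum_abs _ _).trans ((Finset.sum_le_sum p1).trans ?_)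
  simp only [Finset.sum_add_distrib, ← Finset.mul_sum]
  have u1 := mul_le_mul_of_nonneg_left ha hl.le
  have u2 := mul_le_mul_of_nonneg_left hbb hl.le
  have u3 := mul_le_mul_of_nonneg_left hc1 hl.le
  have u4 : 0 ≤ lam * (s * (b * v)) := by positivity
  nlinarith [u1, u2, u3, u4, hE]

/-! ### `W` -/

/-- general bound `|tr (hT M)| ≤ 2 lam t ‖M‖_F` -/
theorem Two.abs_trace_hT_mul_le (h : Two F Zp Zm b t s v cw) (hT' : TPar F forb lam Δ)
    {M : Matrix ι ι ℝ} {y : ℝ} (hy : 0 ≤ y) (hM : Mat.frob M ≤ y ^ 2) :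
    |(hT F forb Zp Zm lam * M).trace| ≤ 2 * lam * t * y := by
  have hl := hT'.lam0
  have h1 : Mat.frob (hT F forb Zp Zm lam) ≤ (2 * lam * t) ^ 2 := by
    refine (frob_hT_le hl).trans ?_
    have h2 := h.p.frob1
    have h3 := h.m.frob1
    nlinarith [sq_nonneg lam]
  exact abs_trace_le_of_frob (mul_nonneg (by positivity) h.t0) hy h1 hM

/-- the error part of the tilt against `Z² Z'² Z` -/
theorem Two.tilt_W_err (h : Two F Zp Zm b t s v cw) (hT' : TPar F forb lam Δ)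
    (hP : IsPair Zp Zm Z Z') :
    |(hT F forb Zp Zm lam * (Z ^ 2 * Z' ^ 2 * Z)).trace
      - lam * ((Z + Z') * (Z ^ 2 * Z' ^ 2 * Z)).trace|
      ≤ 4 * lam * b ^ 2 * cw ^ 2 + rbs lam Δ s * b * cw ^ 2 := by
  classical
  have hs := (h.one hP).symm
  have hop := h.opB hP
  have hb := h.b0
  have hcw := h.cw0
  have hl := hT'.lam0
  have hrb := rbs_nonneg (s := s) hT'
  set H := Zp + Zm with hH
  have hHop : Mat.OpB H (2 * b) := h.opB_H
  have w1 : Mat.frob (Z * Z') ≤ cw ^ 2 := h.frobW hP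
  have w2 : Mat.frob (Z' * Z) ≤ cw ^ 2 := h.frobW hP.swap
  have w3 : Mat.frob (Z * (Z * Z')) ≤ (b * cw) ^ 2 := OpB.mul_frob hb hop w1
  set B := (gd F Zp Zm)ᶜ with hB
  set Q := gd F Zp Zm with hQ
  have e : (hT F forb Zp Zm lam * (Z ^ 2 * Z' ^ 2 * Z)).trace
      - lam * ((Z + Z') * (Z ^ 2 * Z' ^ 2 * Z)).trace
      = -lam * ((prj B * H * (Z * (Z * Z'))) * (Z' * Z)).trace
        - lam * ((prj Q * (H * (prj B * (Z * (Z * Z'))))) * (Z' * Z)).trace
        - (eT F forb Zp Zm lam * (Z * (Z * Z')) * (Z' * Z)).trace := by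
    rw [hT_eq, hP.add, RT_eq, ← hB, ← hQ, ← hH]
    have hHZ : Z + Z' = H := hP.add.symm
    rw [hHZ]
    simp only [sq, Matrix.sub_mul, Matrix.smul_mul, Matrix.add_mul, Matrix.trace_sub,
      Matrix.trace_smul, Matrix.trace_add, smul_eq_mul, Matrix.mul_assoc]
    ring
  rw [e]
  have t1 := abs_trace_le_of_frob (M := prj B * H * (Z * (Z * Z'))) (N := Z' * Z)
    (by positivity : 0 ≤ 1 * (2 * b) * (b * cw)) hcw
    (OpB.mul_frob (by positivity) ((opB_prj B).mul hHop) w3) w2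
  have t2 := abs_trace_le_of_frob (M := prj Q * (H * (prj B * (Z * (Z * Z')))))
    (N := Z' * Z) (by positivity : 0 ≤ 1 * (2 * b * (1 * (b * cw)))) hcw
    (OpB.mul_frob (by norm_num) (opB_prj Q) (OpB.mul_frob (by positivity) hHop
      (OpB.mul_frob (by norm_num) (opB_prj B) w3))) w2
  have t3 := abs_trace_op_le hrb (h.opE hT') (mul_nonneg hb hcw) hcw w3 w2
  have u1 := mul_le_mul_of_nonneg_left t1 hl.le
  have u2 := mul_le_mul_of_nonneg_left t2 hl.le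
  rw [← abs_of_pos hl, ← abs_mul, abs_of_pos hl] at u1 u2
  rw [abs_le] at u1 u2 t3 ⊢
  constructor <;> nlinarith [u1.1, u1.2, u2.1, u2.2, t3.1, t3.2]

/-- the sign of the main part -/
theorem main_W_nonneg {A B : Matrix ι ι ℝ} (hA : A.IsSymm) (hB : B.IsSymm) :
    0 ≤ ((A + B) * (A ^ 2 * B ^ 2 * A)).trace + ((B + A) * (B ^ 2 * A ^ 2 * B)).trace := by
  -- `= ‖A²B‖² + ‖B²A‖² + 2 tr (B²A · B A²)`
  have h1 : (A * (A ^ 2 * B ^ 2 * A)).trace = Mat.frob (A ^ 2 * B) := by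
    rw [Mat.frob_eq_trace, Matrix.transpose_mul, hB.eq, (Mat.IsSymm_pow hA 2).eq]
    have e1 : A * (A ^ 2 * B ^ 2 * A) = A ^ 3 * B * (B * A) := by
      simp only [pow_succ, pow_zero, one_mul, Matrix.mul_assoc]
    have e2 : B * A ^ 2 * (A ^ 2 * B) = (B * A) * (A ^ 3 * B) := by
      simp only [pow_succ, pow_zero, one_mul, Matrix.mul_assoc]
    rw [e1, e2, Matrix.trace_mul_comm]
  have h2 : (B * (B ^ 2 * A ^ 2 * B)).trace = Mat.frob (B ^ 2 * A) := by
    rw [Mat.frob_eq_trace, Matrix.transpose_mul, hA.eq, (Mat.IsSymm_pow hB 2).eq]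
    have e1 : B * (B ^ 2 * A ^ 2 * B) = B ^ 3 * A * (A * B) := by
      simp only [pow_succ, pow_zero, one_mul, Matrix.mul_assoc]
    have e2 : A * B ^ 2 * (B ^ 2 * A) = (A * B) * (B ^ 3 * A) := by
      simp only [pow_succ, pow_zero, one_mul, Matrix.mul_assoc]
    rw [e1, e2, Matrix.trace_mul_comm]
  have h3 : (B * (A ^ 2 * B ^ 2 * A)).trace = ((B ^ 2 * A) * (B * A ^ 2)).trace := by
    rw [Matrix.trace_mul_comm (B ^ 2 * A)]
    simp only [Matrix.mul_assoc]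
  have h4 : (A * (B ^ 2 * A ^ 2 * B)).trace = ((A * B ^ 2) * (A ^ 2 * B)).trace := by
    simp only [Matrix.mul_assoc]
  have f1 : Mat.frob (B * A ^ 2) = Mat.frob (A ^ 2 * B) := by
    rw [← Mat.frob_transpose, Matrix.transpose_mul, hB.eq, (Mat.IsSymm_pow hA 2).eq]
  have f2 : Mat.frob (A * B ^ 2) = Mat.frob (B ^ 2 * A) := by
    rw [← Mat.frob_transpose, Matrix.transpose_mul, hA.eq, (Mat.IsSymm_pow hB 2).eq]
  have k3 := Mat.abs_trace_mul_le (B ^ 2 * A) (B * A ^ 2)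
  have k4 := Mat.abs_trace_mul_le (A * B ^ 2) (A ^ 2 * B)
  rw [f1] at k3
  rw [f2] at k4
  have s1 := Real.sq_sqrt (Mat.frob_nonneg (A ^ 2 * B))
  have s2 := Real.sq_sqrt (Mat.frob_nonneg (B ^ 2 * A))
  rw [Matrix.add_mul, Matrix.add_mul, Matrix.trace_add, Matrix.trace_add, h1, h2, h3, h4]
  rw [abs_le] at k3 k4
  nlinarith [sq_nonneg (√(Mat.frob (A ^ 2 * B)) - √(Mat.frob (B ^ 2 * A))), k3.1, k4.1]

/-- **W**: the tilt term of `tr (Z₊² Z₋²)` -/
theorem Two.tilt_W (h : Two F Zp Zm b t s v cw) (hT' : TPar F forb lam Δ) :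
    -((hT F forb Zp Zm lam * (Zp ^ 2 * Zm ^ 2 * Zp)).trace
      + (hT F forb Zp Zm lam * (Zm ^ 2 * Zp ^ 2 * Zm)).trace)
      ≤ 8 * lam * b ^ 2 * cw ^ 2 + 2 * rbs lam Δ s * b * cw ^ 2 := by
  have k1 := h.tilt_W_err hT' (Or.inl ⟨rfl, rfl⟩)
  have k2 := h.tilt_W_err hT' (Or.inr ⟨rfl, rfl⟩)
  have k3 := mul_nonneg hT'.lam0.le (main_W_nonneg h.p.symm h.m.symm)
  rw [abs_le] at k1 k2
  nlinarith [k1.1, k2.1]

/-- `‖Z² Z'‖_F ≤ b cw` and friends, for the lower-order words of `W` -/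
theorem Two.frob_sq_mul (h : Two F Zp Zm b t s v cw) (hP : IsPair Zp Zm Z Z') :
    Mat.frob (Z ^ 2 * Z') ≤ (b * cw) ^ 2 := by
  rw [sq, Matrix.mul_assoc]
  exact OpB.mul_frob h.b0 (h.opB hP) (h.frobW hP)

theorem Two.frob_mul_sq (h : Two F Zp Zm b t s v cw) (hP : IsPair Zp Zm Z Z') :
    Mat.frob (Z' * Z ^ 2) ≤ (b * cw) ^ 2 := by
  rw [← Mat.frob_transpose, Matrix.transpose_mul, (h.one' hP).symm.eq,
    (Mat.IsSymm_pow (h.one hP).symm 2).eq]
  exact h.frob_sq_mul hP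

end Vale.Agent.P049.TS.Tilt
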