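import Vale.Agent.P049.TS.Tilt.Proj

/-!
The tilt term of `V = Σ ((Z²)_cc - 1)²`:  `-Σ_c g_c (Z hT Z²)_cc`.
-/

set_option linter.unusedSectionVars false

namespace Vale.Agent.P049.TS.Tilt

open Matrix Finset

variable {ι : Type*} [Fintype ι] [DecidableEq ι]
variable {F : Finset ι} {forb : ι → ι → Prop} {Zp Zm Z Z' : Matrix ι ι ℝ}
  {lam b t s v cw w r Δ : ℝ}

theorem OpB.mul_frob {A M : Matrix ι ι ℝ} {x y : ℝ} (_hx : 0 ≤ x) (hA : Mat.OpB A x)
    (hM : Mat.frob M ≤ y ^ 2) : Mat.frob (A * M) ≤ (x * y) ^ 2 := by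
  refine (hA.frob_mul_le M).trans ?_
  rw [mul_pow]
  exact mul_le_mul_of_nonneg_left hM (sq_nonneg x)

theorem OpB.frob_mul {A M : Matrix ι ι ℝ} (hs : A.IsSymm) {x y : ℝ} (hA : Mat.OpB A x)
    (hM : Mat.frob M ≤ y ^ 2) : Mat.frob (M * A) ≤ (x * y) ^ 2 := by
  refine (hA.frob_mul_le_right hs M).trans ?_
  rw [mul_pow]
  exact mul_le_mul_of_nonneg_left hM (sq_nonneg x)

/-- `Σ_c |(Z RT Z²)_cc| ≤ (7/2) b² v²` -/
theorem Two.sum_diag_R (h : Two F Zp Zm b t s v cw) (hP : IsPair Zp Zm Z Z') (S : Finset ι) :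
    ∑ c ∈ S, |(Z * RT F Zp Zm * Z ^ 2) c c| ≤ 7 / 2 * (b ^ 2 * v ^ 2) := by
  classical
  have hs := (h.one hP).symm
  have hop := h.opB hP
  have hb := h.b0
  have hv := h.v0
  set B := (gd F Zp Zm)ᶜ with hB
  set Q := gd F Zp Zm with hQ
  set H := Zp + Zm with hH
  have hHs : H.IsSymm := h.p.symm.add h.m.symm
  have e : Z * RT F Zp Zm * Z ^ 2
      = (Z * prj B) * (prj B * H * Z ^ 2) + (Z * (prj Q * H * prj B)) * (prj B * Z ^ 2) := by
    rw [RT_eq, ← hQ, ← hB, ← hH]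
    have k1 : (Z * prj B) * (prj B * H * Z ^ 2) = Z * (prj B * prj B) * H * Z ^ 2 := by
      simp only [Matrix.mul_assoc]
    have k2 : (Z * (prj Q * H * prj B)) * (prj B * Z ^ 2)
        = Z * (prj Q * H * (prj B * prj B)) * Z ^ 2 := by
      simp only [Matrix.mul_assoc]
    rw [k1, k2, prj_mul_prj]
    simp only [Matrix.mul_add, Matrix.add_mul, Matrix.mul_assoc]
  have f1 : Mat.frob (Z * prj B) ≤ (10 / 9 * v) ^ 2 := by
    rw [frob_mul_prj hs]; exact h.sum_bad_w hP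
  have f1' : Mat.frob (prj B * Z) ≤ (10 / 9 * v) ^ 2 := by
    rw [frob_prj_mul]; exact h.sum_bad_w hP
  have f2 : Mat.frob (prj B * H) ≤ (63 / 40 * v) ^ 2 := by
    rw [frob_prj_mul]; exact h.sum_bad_H
  have f2' : Mat.frob (H * prj B) ≤ (63 / 40 * v) ^ 2 := by
    rw [frob_mul_prj hHs]; exact h.sum_bad_H
  have f3 : Mat.frob (prj B * H * Z ^ 2) ≤ (b ^ 2 * (63 / 40 * v)) ^ 2 :=
    OpB.frob_mul (Mat.IsSymm_pow hs 2) (hop.pow 2) f2
  have f4 : Mat.frob (Z * (prj Q * H * prj B)) ≤ (b * (1 * (63 / 40 * v))) ^ 2 := by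
    rw [Matrix.mul_assoc (prj Q)]
    exact OpB.mul_frob hb hop (OpB.mul_frob (by norm_num) (opB_prj Q) f2')
  have f5 : Mat.frob (prj B * Z ^ 2) ≤ (b * (10 / 9 * v)) ^ 2 := by
    rw [sq Z, ← Matrix.mul_assoc]
    exact OpB.frob_mul hs hop f1'
  have s1 := sum_abs_diag_mul_le (Z * prj B) (prj B * H * Z ^ 2) S (by positivity)
    (by positivity) f1 f3
  have s2 := sum_abs_diag_mul_le (Z * (prj Q * H * prj B)) (prj B * Z ^ 2) S (by positivity)
    (by positivity) f4 f5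
  rw [e]
  calc _ ≤ ∑ c ∈ S, (|((Z * prj B) * (prj B * H * Z ^ 2)) c c|
        + |((Z * (prj Q * H * prj B)) * (prj B * Z ^ 2)) c c|) :=
        Finset.sum_le_sum fun c _ => by rw [Matrix.add_apply]; exact abs_add_le _ _
    _ ≤ _ := by
        rw [Finset.sum_add_distrib]
        nlinarith [s1, s2]

/-- the matrix identity `Z hT Z²` -/
theorem Two.ZhZ2 (hP : IsPair Zp Zm Z Z') (c : ι) :
    (Z * hT F forb Zp Zm lam * Z ^ 2) c c
      = lam * ((Z ^ 4) c c + (Z * Z' * Z ^ 2) c c - (Z * RT F Zp Zm * Z ^ 2) c c)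
        - (Z * eT F forb Zp Zm lam * Z ^ 2) c c := by
  have e4 : Z ^ 4 = Z * Z * Z ^ 2 := by rw [← sq, ← pow_add]
  rw [hT_eq, hP.add, e4]
  simp only [Matrix.mul_sub, Matrix.sub_mul, Matrix.mul_smul, Matrix.smul_mul, Matrix.mul_add,
    Matrix.add_mul, Matrix.sub_apply, Matrix.smul_apply, Matrix.add_apply, smul_eq_mul]

/-- **V**: the tilt term of `Σ_c g_c²` -/
theorem Two.tilt_V (h : Two F Zp Zm b t s v cw) (hT' : TPar F forb lam Δ)
    (hP : IsPair Zp Zm Z Z') (hr0 : 0 ≤ r) (hr : v ^ 3 ≤ r ^ 2) (hw0 : 0 ≤ w)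
    (hw : ∑ c ∈ F, (Z ^ 2) c c ^ 2 ≤ w ^ 2) :
    -∑ c ∈ F, ((Z ^ 2) c c - 1) * (Z * hT F forb Zp Zm lam * Z ^ 2) c c
      ≤ lam * (b ^ 4 + cw * (3 * b ^ 2 + 6 / 5 * (b * r)) + 21 / 2 * (b ^ 2 * v ^ 2)
          + 3 * (b * v ^ 3)) + rbs lam Δ s * b * v * w := by
  have hs := (h.one hP).symm
  have hs' := (h.one' hP).symm
  have hop := h.opB hP
  have hb := h.b0
  have hv := h.v0
  have hcw := h.cw0
  have hl := hT'.lam0
  have hrb := rbs_nonneg (s := s) hT'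
  have hV : ∑ c ∈ F, ((Z ^ 2) c c - 1) ^ 2 ≤ v ^ 2 := (h.one hP).V
  -- abbreviations
  set g : ι → ℝ := fun c => (Z ^ 2) c c - 1 with hg
  have hgw : ∀ c, (Z ^ 2) c c = 1 + g c := fun c => by simp [hg]
  have hw0' : ∀ c, 0 ≤ (Z ^ 2) c c := fun c => Mat.sq_diag_nonneg hs c
  have hgv : ∀ c ∈ F, |g c| ≤ v := by
    intro c hc
    refine abs_le_of_sq_le_sq ?_ hv
    exact (Finset.single_le_sum (f := fun c => ((Z ^ 2) c c - 1) ^ 2)
      (fun _ _ => sq_nonneg _) hc).trans hV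
  -- `|g| > 3` forces `w ≤ 4/3 |g|`
  have hbig : ∀ c, ¬ |g c| ≤ 3 → (Z ^ 2) c c ≤ 4 / 3 * |g c| := by
    intro c hc
    rw [not_le] at hc
    have h1 := hw0' c
    rw [hgw c] at h1 ⊢
    have h2 : 0 ≤ g c := by
      by_contra hn
      rw [not_le] at hn
      rw [abs_of_neg hn] at hc
      linarith
    rw [abs_of_nonneg h2] at hc ⊢
    linarith
  -- (a)
  have ha : -∑ c ∈ F, g c * (Z ^ 4) c c ≤ b ^ 4 := by
    have h0 : ∀ c, 0 ≤ (Z ^ 4) c c := fun c => Mat.pow_even_diag_nonneg hs 2 c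
    calc -∑ c ∈ F, g c * (Z ^ 4) c c = ∑ c ∈ F, -(g c * (Z ^ 4) c c) := by
          rw [Finset.sum_neg_distrib]
      _ ≤ ∑ c ∈ F, (Z ^ 4) c c := by
          refine Finset.sum_le_sum fun c _ => ?_
          have h1 := hw0' c
          rw [hgw c] at h1
          nlinarith [h0 c]
      _ ≤ ∑ c, (Z ^ 4) c c :=
          Finset.sum_le_sum_of_subset_of_nonneg (Finset.subset_univ F) fun c _ _ => h0 c
      _ ≤ b ^ 4 := (h.one hP).T4
  -- (b)
  have hcr : ∑ c ∈ F, |g c| * |(Z * Z' * Z ^ 2) c c| ≤ cw * (3 * b ^ 2 + 6 / 5 * (b * r)) := by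
    have p1 : ∀ c ∈ F, |g c| * |(Z * Z' * Z ^ 2) c c| ≤ 3 * |(Z * Z' * Z ^ 2) c c|
        + |√(∑ j, (Z * Z') c j ^ 2)| * |b * √(4 / 3 * (v * g c ^ 2))| := by
      intro c hc
      by_cases hc3 : |g c| ≤ 3
      · have : 0 ≤ |√(∑ j, (Z * Z') c j ^ 2)| * |b * √(4 / 3 * (v * g c ^ 2))| := by positivity
        nlinarith [abs_nonneg ((Z * Z' * Z ^ 2) c c)]
      · have k1 := abs_diag_mul_le (Z * Z') (Z ^ 2) c
        have k2 : √(∑ j, (Z ^ 2) j c ^ 2) ≤ b * √(4 / 3 * |g c|) := by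
          have := Real.sqrt_le_sqrt ((sum_col_sq_le hs hop c).trans
            (mul_le_mul_of_nonneg_left (hbig c hc3) (sq_nonneg b)))
          rwa [Real.sqrt_mul (sq_nonneg b), Real.sqrt_sq hb] at this
        have k3 : |g c| * √(4 / 3 * |g c|) ≤ √(4 / 3 * (v * g c ^ 2)) := by
          refine Real.le_sqrt_of_sq_le ?_
          rw [mul_pow, Real.sq_sqrt (by positivity), sq_abs]
          nlinarith [hgv c hc, sq_nonneg (g c)]
        rw [abs_of_nonneg (Real.sqrt_nonneg (∑ j, (Z * Z') c j ^ 2)),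
          abs_of_nonneg (mul_nonneg hb (Real.sqrt_nonneg _))]
        have q := Real.sqrt_nonneg (∑ j, (Z * Z') c j ^ 2)
        calc |g c| * |(Z * Z' * Z ^ 2) c c|
            ≤ |g c| * (√(∑ j, (Z * Z') c j ^ 2) * (b * √(4 / 3 * |g c|))) :=
              mul_le_mul_of_nonneg_left (k1.trans (mul_le_mul_of_nonneg_left k2 q))
                (abs_nonneg _)
          _ = √(∑ j, (Z * Z') c j ^ 2) * (b * (|g c| * √(4 / 3 * |g c|))) := by ring
          _ ≤ √(∑ j, (Z * Z') c j ^ 2) * (b * √(4 / 3 * (v * g c ^ 2))) :=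
              mul_le_mul_of_nonneg_left (mul_le_mul_of_nonneg_left k3 hb) q
          _ ≤ _ := by
              have := abs_nonneg ((Z * Z' * Z ^ 2) c c)
              linarith
    refine (Finset.sum_le_sum p1).trans ?_
    rw [Finset.sum_add_distrib, ← Finset.mul_sum]
    have s1 := sum_abs_diag_mul_le (Z * Z') (Z ^ 2) F hcw (sq_nonneg b) (h.frobW hP)
      (h.one hP).frob2
    have s2 := sum_abs_mul_le F (fun c => √(∑ j, (Z * Z') c j ^ 2))
      (fun c => b * √(4 / 3 * (v * g c ^ 2)))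
    have s3 : √(∑ c ∈ F, √(∑ j, (Z * Z') c j ^ 2) ^ 2) ≤ cw := by
      rw [← Real.sqrt_sq hcw]
      refine Real.sqrt_le_sqrt ?_
      calc _ = ∑ c ∈ F, ∑ j, (Z * Z') c j ^ 2 := by
            refine Finset.sum_congr rfl fun c _ => ?_
            exact Real.sq_sqrt (Finset.sum_nonneg fun _ _ => sq_nonneg _)
        _ ≤ Mat.frob (Z * Z') := Finset.sum_le_sum_of_subset_of_nonneg (Finset.subset_univ F)
            fun _ _ _ => Finset.sum_nonneg fun _ _ => sq_nonneg _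
        _ ≤ _ := h.frobW hP
    have s4 : √(∑ c ∈ F, (b * √(4 / 3 * (v * g c ^ 2))) ^ 2) ≤ 6 / 5 * (b * r) := by
      rw [← Real.sqrt_sq (by positivity : (0 : ℝ) ≤ 6 / 5 * (b * r))]
      refine Real.sqrt_le_sqrt ?_
      have e1 : ∀ c, (b * √(4 / 3 * (v * g c ^ 2))) ^ 2 = b ^ 2 * (4 / 3 * v) * g c ^ 2 := by
        intro c
        rw [mul_pow, Real.sq_sqrt (by positivity)]
        ring
      simp only [e1]
      rw [← Finset.mul_sum]
      have e2 : b ^ 2 * (4 / 3 * v) * ∑ c ∈ F, g c ^ 2 ≤ b ^ 2 * (4 / 3 * v) * v ^ 2 :=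
        mul_le_mul_of_nonneg_left hV (by positivity)
      nlinarith [mul_le_mul_of_nonneg_left hr (sq_nonneg b), sq_nonneg (b * r)]
    have s5 := s2.trans (mul_le_mul s3 s4 (Real.sqrt_nonneg _) hcw)
    linarith
  -- (c)
  have hR : ∑ c ∈ F, |g c| * |(Z * RT F Zp Zm * Z ^ 2) c c|
      ≤ 21 / 2 * (b ^ 2 * v ^ 2) + 3 * (b * v ^ 3) := by
    have p1 : ∀ c ∈ F, |g c| * |(Z * RT F Zp Zm * Z ^ 2) c c|
        ≤ 3 * |(Z * RT F Zp Zm * Z ^ 2) c c| + 3 * (b * v) * g c ^ 2 := by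
      intro c hc
      have q := abs_nonneg ((Z * RT F Zp Zm * Z ^ 2) c c)
      by_cases hc3 : |g c| ≤ 3
      · have : 0 ≤ 3 * (b * v) * g c ^ 2 := by positivity
        nlinarith
      · have k1 := OpB.abs_diag_two hs hb hop (by positivity : 0 ≤ 9 / 4 * v) h.opB_R c
        have k2 := hbig c hc3
        have k3 : |g c| * |(Z * RT F Zp Zm * Z ^ 2) c c| ≤ 3 * (b * v) * g c ^ 2 := by
          calc _ ≤ |g c| * (9 / 4 * v * b * (4 / 3 * |g c|)) :=
                mul_le_mul_of_nonneg_left (k1.trans (mul_le_mul_of_nonneg_left k2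
                  (by positivity))) (abs_nonneg _)
            _ = 3 * (b * v) * (|g c| * |g c|) := by ring
            _ = _ := by rw [abs_mul_abs_self, sq]
        linarith
    refine (Finset.sum_le_sum p1).trans ?_
    rw [Finset.sum_add_distrib, ← Finset.mul_sum, ← Finset.mul_sum]
    have s1 := h.sum_diag_R hP F
    have s2 : 3 * (b * v) * ∑ c ∈ F, g c ^ 2 ≤ 3 * (b * v) * v ^ 2 :=
      mul_le_mul_of_nonneg_left hV (by positivity)
    nlinarith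
  -- (d)
  have hE : ∑ c ∈ F, |g c| * |(Z * eT F forb Zp Zm lam * Z ^ 2) c c|
      ≤ rbs lam Δ s * b * v * w := by
    have p1 : ∀ c ∈ F, |g c| * |(Z * eT F forb Zp Zm lam * Z ^ 2) c c|
        ≤ rbs lam Δ s * b * (|g c| * |(Z ^ 2) c c|) := by
      intro c _
      have k1 := OpB.abs_diag_two hs hb hop hrb (h.opE hT') c
      rw [abs_of_nonneg (hw0' c)]
      calc _ ≤ |g c| * (rbs lam Δ s * b * (Z ^ 2) c c) :=
            mul_le_mul_of_nonneg_left k1 (abs_nonneg _)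
        _ = _ := by ring
    refine (Finset.sum_le_sum p1).trans ?_
    rw [← Finset.mul_sum]
    have s1 := sum_abs_mul_le F g (fun c => (Z ^ 2) c c)
    have s2 : √(∑ c ∈ F, g c ^ 2) ≤ v := by
      rw [← Real.sqrt_sq hv]; exact Real.sqrt_le_sqrt hV
    have s3 : √(∑ c ∈ F, (Z ^ 2) c c ^ 2) ≤ w := by
      rw [← Real.sqrt_sq hw0]; exact Real.sqrt_le_sqrt hw
    have s4 := s1.trans (mul_le_mul s2 s3 (Real.sqrt_nonneg _) hv)
    calc _ ≤ rbs lam Δ s * b * (v * w) := mul_le_mul_of_nonneg_left s4 (by positivity)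
      _ = _ := by ring
  -- assembly
  have e : -∑ c ∈ F, g c * (Z * hT F forb Zp Zm lam * Z ^ 2) c c
      = lam * (-∑ c ∈ F, g c * (Z ^ 4) c c) - lam * ∑ c ∈ F, g c * (Z * Z' * Z ^ 2) c c
        + lam * ∑ c ∈ F, g c * (Z * RT F Zp Zm * Z ^ 2) c c
        + ∑ c ∈ F, g c * (Z * eT F forb Zp Zm lam * Z ^ 2) c c := by
    simp only [Finset.mul_sum, ← Finset.sum_neg_distrib, ← Finset.sum_sub_distrib,
      ← Finset.sum_add_distrib]
    refine Finset.sum_congr rfl fun c _ => ?_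
    rw [Two.ZhZ2 hP c]
    ring
  have t2 : -∑ c ∈ F, g c * (Z * Z' * Z ^ 2) c c ≤ cw * (3 * b ^ 2 + 6 / 5 * (b * r)) := by
    refine le_trans ?_ hcr
    rw [← Finset.sum_neg_distrib]
    refine Finset.sum_le_sum fun c _ => ?_
    rw [← abs_mul]; exact neg_le_abs _
  have t3 : ∑ c ∈ F, g c * (Z * RT F Zp Zm * Z ^ 2) c c
      ≤ 21 / 2 * (b ^ 2 * v ^ 2) + 3 * (b * v ^ 3) := by
    refine le_trans (Finset.sum_le_sum fun c _ => ?_) hR
    rw [← abs_mul]; exact le_abs_self _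
  have t4 : ∑ c ∈ F, g c * (Z * eT F forb Zp Zm lam * Z ^ 2) c c
      ≤ rbs lam Δ s * b * v * w := by
    refine le_trans (Finset.sum_le_sum fun c _ => ?_) hE
    rw [← abs_mul]; exact le_abs_self _
  change -∑ c ∈ F, g c * (Z * hT F forb Zp Zm lam * Z ^ 2) c c ≤ _
  rw [e]
  have u1 := mul_le_mul_of_nonneg_left ha hl.le
  have u2 := mul_le_mul_of_nonneg_left t2 hl.le
  have u3 := mul_le_mul_of_nonneg_left t3 hl.le
  linarith

end Vale.Agent.P049.TS.Tilt
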