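import Vale.Agent.P049.TS.Avg.Adm
import Vale.Agent.P049.TS.Mat.Basic

/-!
The tilt.

`H = Z₊ + Z₋`; `gd` = the free stubs with both row norms at most `4`;
`hT lam` is the symmetric matrix `lam * clip (H a b)` on admissible pairs of good stubs, and `0`
elsewhere (`|hT| ≤ 1/2`); it is used with the weights `1 - hT a b`.

Structure: `hT = lam • (H - RT) - eT`, where `frob RT` is small (rows outside `gd`) and `eT` has
absolute row sums at most `rb`, hence operator norm at most `rb`.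
-/

set_option linter.unusedSectionVars false

namespace Vale.Agent.P049.TS.Tilt

open Matrix Finset

variable {ι : Type*} [Fintype ι] [DecidableEq ι]

/-! ### Schur test -/

/-- a symmetric matrix with absolute row sums at most `r` has operator norm at most `r` -/
theorem opB_of_rowSum {E : Matrix ι ι ℝ} (hE : E.IsSymm) {r : ℝ}
    (h : ∀ a, ∑ b, |E a b| ≤ r) : Mat.OpB E r := by
  intro v
  by_cases hι : Nonempty ι
  swap
  · have := not_nonempty_iff.1 hι
    simp [dotProduct]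
  have hr : 0 ≤ r := le_trans (Finset.sum_nonneg fun _ _ => abs_nonneg _) (h hι.some)
  simp only [dotProduct, Matrix.mulVec]
  have h1 : ∀ a, (∑ b, E a b * v b) * (∑ b, E a b * v b) ≤ r * ∑ b, |E a b| * (v b * v b) := by
    intro a
    have c := Finset.sum_mul_sq_le_sq_mul_sq Finset.univ (fun b => √|E a b|)
      (fun b => √|E a b| * |v b|)
    have e1 : ∀ b, √|E a b| * (√|E a b| * |v b|) = |E a b * v b| := by
      intro b
      rw [← mul_assoc, Real.mul_self_sqrt (abs_nonneg _), abs_mul]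
    have e2 : ∀ b, (√|E a b| * |v b|) ^ 2 = |E a b| * (v b * v b) := by
      intro b
      rw [mul_pow, Real.sq_sqrt (abs_nonneg _), sq_abs, sq]
    have e3 : ∀ b, √|E a b| ^ 2 = |E a b| := fun b => Real.sq_sqrt (abs_nonneg _)
    simp only [e1, e2, e3] at c
    have c2 : (∑ b, E a b * v b) * (∑ b, E a b * v b) ≤ (∑ b, |E a b * v b|) ^ 2 := by
      rw [← sq, ← sq_abs]
      exact pow_le_pow_left₀ (abs_nonneg _) (Finset.abs_sum_le_sum_abs _ _) 2
    refine c2.trans (c.trans (mul_le_mul_of_nonneg_right (h a) ?_))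
    exact Finset.sum_nonneg fun b _ => mul_nonneg (abs_nonneg _) (mul_self_nonneg _)
  calc ∑ a, (∑ b, E a b * v b) * (∑ b, E a b * v b)
      ≤ ∑ a, r * ∑ b, |E a b| * (v b * v b) := Finset.sum_le_sum fun a _ => h1 a
    _ = r * ∑ b, (∑ a, |E b a|) * (v b * v b) := by
        rw [← Finset.mul_sum, Finset.sum_comm]
        congr 1
        refine Finset.sum_congr rfl fun b _ => ?_
        rw [Finset.sum_mul]
        refine Finset.sum_congr rfl fun a _ => ?_
        rw [hE.apply b a]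
    _ ≤ r * ∑ b, r * (v b * v b) := by
        refine mul_le_mul_of_nonneg_left (Finset.sum_le_sum fun b _ => ?_) hr
        exact mul_le_mul_of_nonneg_right (h b) (mul_self_nonneg _)
    _ = r ^ 2 * ∑ b, v b * v b := by rw [← Finset.mul_sum]; ring

/-! ### Definitions -/

/-- the truncation to `[-c, c]` -/
noncomputable def clip (c x : ℝ) : ℝ := max (-c) (min c x)

theorem clip_abs_le {c : ℝ} (hc : 0 ≤ c) (x : ℝ) : |clip c x| ≤ c := by
  unfold clip
  rw [abs_le]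
  constructor
  · exact le_max_left _ _
  · exact max_le (by linarith) (min_le_left _ _)

theorem clip_of_abs_le {c x : ℝ} (h : |x| ≤ c) : clip c x = x := by
  have := abs_le.1 h
  unfold clip
  rw [min_eq_right this.2, max_eq_right this.1]

theorem clip_abs_le_abs {c : ℝ} (hc : 0 ≤ c) (x : ℝ) : |clip c x| ≤ |x| := by
  rcases le_or_gt |x| c with h | h
  · rw [clip_of_abs_le h]
  · exact (clip_abs_le hc x).trans h.le

theorem abs_sub_clip_le {c : ℝ} (hc : 0 ≤ c) (x : ℝ) : |x - clip c x| ≤ |x| := by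
  rcases le_total 0 x with h | h
  · have h1 : 0 ≤ clip c x := by
      unfold clip
      exact le_max_of_le_right (le_min hc h)
    have h2 : clip c x ≤ x := by
      unfold clip
      exact max_le (by linarith) (min_le_right _ _)
    rw [abs_of_nonneg (by linarith), abs_of_nonneg h]
    linarith
  · have h1 : clip c x ≤ 0 := by
      unfold clip
      exact max_le (by linarith) ((min_le_right _ _).trans h)
    have h2 : x ≤ clip c x := by
      unfold clip
      refine le_trans ?_ (le_max_right _ _)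
      exact le_min (by linarith) le_rfl
    rw [abs_of_nonpos (by linarith), abs_of_nonpos h]
    linarith

variable (F : Finset ι) (forb : ι → ι → Prop) (Zp Zm : Matrix ι ι ℝ) (lam : ℝ)

open Classical in
/-- the good stubs -/
noncomputable def gd : Finset ι := F.filter fun a => (Zp ^ 2) a a ≤ 4 ∧ (Zm ^ 2) a a ≤ 4

open Classical in
/-- the tilt matrix -/
noncomputable def hT : Matrix ι ι ℝ := fun a b =>
  if (a, b) ∈ adm F forb Zp Zm ∧ a ∈ gd F Zp Zm ∧ b ∈ gd F Zp Zm then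
    lam * clip (1 / (2 * lam)) (Zp a b + Zm a b) else 0

open Classical in
/-- the part of `H` lost outside the good stubs: `RT = H - Q H Q` -/
noncomputable def RT : Matrix ι ι ℝ := fun a b =>
  if a ∈ gd F Zp Zm ∧ b ∈ gd F Zp Zm then 0 else Zp a b + Zm a b

/-- the heavy and the non-admissible part -/
noncomputable def eT : Matrix ι ι ℝ := lam • (Zp + Zm - RT F Zp Zm) - hT F forb Zp Zm lam

variable {F forb Zp Zm lam}

theorem mem_gd {a : ι} : a ∈ gd F Zp Zm ↔ a ∈ F ∧ (Zp ^ 2) a a ≤ 4 ∧ (Zm ^ 2) a a ≤ 4 := by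
  classical
  simp only [gd, Finset.mem_filter]

/-- the structure of the tilt -/
theorem hT_eq : hT F forb Zp Zm lam
    = lam • (Zp + Zm - RT F Zp Zm) - eT F forb Zp Zm lam := by
  unfold eT; abel

theorem hT_apply_eq_zero {a b : ι} (h : (a, b) ∉ adm F forb Zp Zm) :
    hT F forb Zp Zm lam a b = 0 := by
  unfold hT
  rw [if_neg]
  exact fun h' => h h'.1

theorem abs_hT_le_half (hl : 0 < lam) (a b : ι) : |hT F forb Zp Zm lam a b| ≤ 1 / 2 := by
  unfold hT
  split_ifs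
  · rw [abs_mul, abs_of_pos hl]
    calc lam * |clip (1 / (2 * lam)) (Zp a b + Zm a b)| ≤ lam * (1 / (2 * lam)) :=
          mul_le_mul_of_nonneg_left (clip_abs_le (by positivity) _) hl.le
      _ = 1 / 2 := by field_simp
  · simp

theorem abs_hT_le (hl : 0 < lam) (a b : ι) :
    |hT F forb Zp Zm lam a b| ≤ lam * |Zp a b + Zm a b| := by
  unfold hT
  split_ifs
  · rw [abs_mul, abs_of_pos hl]
    exact mul_le_mul_of_nonneg_left (clip_abs_le_abs (by positivity) _) hl.le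
  · simp only [abs_zero]
    positivity

theorem adm_symm (hp : Zp.IsSymm) (hm : Zm.IsSymm) (hf : ∀ a b, forb a b → forb b a) {a b : ι}
    (h : (a, b) ∈ adm F forb Zp Zm) : (b, a) ∈ adm F forb Zp Zm := by
  rw [mem_adm] at h ⊢
  obtain ⟨⟨h1, h2⟩, h3, h4, h5, h6⟩ := h
  refine ⟨⟨h2, h1⟩, Ne.symm h3, fun h => h4 (hf _ _ h), ?_, ?_⟩
  · unfold PairOK at h5 ⊢
    simp only at h5 ⊢
    rw [hp.apply a b, mul_comm (Zp b b)]
    exact h5
  · unfold PairOK at h6 ⊢
    simp only at h6 ⊢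
    rw [hm.apply a b, mul_comm (Zm b b)]
    exact h6

theorem hT_isSymm (hp : Zp.IsSymm) (hm : Zm.IsSymm) (hf : ∀ a b, forb a b → forb b a) :
    (hT F forb Zp Zm lam).IsSymm := by
  ext a b
  rw [Matrix.transpose_apply]
  unfold hT
  rw [hp.apply a b, hm.apply a b]
  congr 1
  rw [eq_iff_iff]
  constructor
  · rintro ⟨h1, h2, h3⟩; exact ⟨adm_symm hp hm hf h1, h3, h2⟩
  · rintro ⟨h1, h2, h3⟩; exact ⟨adm_symm hp hm hf h1, h3, h2⟩

theorem RT_isSymm (hp : Zp.IsSymm) (hm : Zm.IsSymm) : (RT F Zp Zm).IsSymm := by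
  ext a b
  rw [Matrix.transpose_apply]
  unfold RT
  rw [hp.apply a b, hm.apply a b]
  congr 1
  rw [eq_iff_iff]
  exact and_comm

theorem eT_isSymm (hp : Zp.IsSymm) (hm : Zm.IsSymm) (hf : ∀ a b, forb a b → forb b a) :
    (eT F forb Zp Zm lam).IsSymm := by
  unfold eT Matrix.IsSymm
  rw [Matrix.transpose_sub, Matrix.transpose_smul, Matrix.transpose_sub, Matrix.transpose_add,
    hp.eq, hm.eq, (RT_isSymm hp hm).eq, (hT_isSymm hp hm hf).eq]

/-! ### `‖h‖_F` -/

theorem sum_add_sq_le (Zp Zm : Matrix ι ι ℝ) (a : ι) :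
    ∑ b, (Zp a b + Zm a b) ^ 2 ≤ 2 * (∑ b, Zp a b ^ 2 + ∑ b, Zm a b ^ 2) := by
  rw [← Finset.sum_add_distrib, Finset.mul_sum]
  refine Finset.sum_le_sum fun b _ => ?_
  nlinarith [sq_nonneg (Zp a b - Zm a b)]

theorem frob_add_le (Zp Zm : Matrix ι ι ℝ) :
    Mat.frob (Zp + Zm) ≤ 2 * (Mat.frob Zp + Mat.frob Zm) := by
  unfold Mat.frob
  rw [← Finset.sum_add_distrib, Finset.mul_sum]
  exact Finset.sum_le_sum fun a _ => sum_add_sq_le Zp Zm a

theorem frob_hT_le (hl : 0 < lam) :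
    Mat.frob (hT F forb Zp Zm lam) ≤ 2 * lam ^ 2 * (Mat.frob Zp + Mat.frob Zm) := by
  have h1 : Mat.frob (hT F forb Zp Zm lam) ≤ lam ^ 2 * Mat.frob (Zp + Zm) := by
    unfold Mat.frob
    rw [Finset.mul_sum]
    refine Finset.sum_le_sum fun a _ => ?_
    rw [Finset.mul_sum]
    refine Finset.sum_le_sum fun b _ => ?_
    have := pow_le_pow_left₀ (abs_nonneg _) (abs_hT_le (F := F) (forb := forb) (Zp := Zp)
      (Zm := Zm) hl a b) 2
    rwa [sq_abs, mul_pow, sq_abs] at this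
  calc _ ≤ _ := h1
    _ ≤ lam ^ 2 * (2 * (Mat.frob Zp + Mat.frob Zm)) :=
        mul_le_mul_of_nonneg_left (frob_add_le Zp Zm) (sq_nonneg _)
    _ = _ := by ring

/-! ### The part outside the good stubs -/

/-- `V = Σ_{a ∈ F} ((Z²)_aa - 1)²` -/
def Vd (F : Finset ι) (Z : Matrix ι ι ℝ) : ℝ := ∑ a ∈ F, ((Z ^ 2) a a - 1) ^ 2

theorem Vd_nonneg (F : Finset ι) (Z : Matrix ι ι ℝ) : 0 ≤ Vd F Z :=
  Finset.sum_nonneg fun _ _ => sq_nonneg _

/-- the row norms of `H` -/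
theorem rowH_le (hp : Zp.IsSymm) (hm : Zm.IsSymm) (a : ι) :
    ∑ b, (Zp a b + Zm a b) ^ 2 ≤ 2 * ((Zp ^ 2) a a + (Zm ^ 2) a a) := by
  rw [Mat.sq_diag_eq_sum hp, Mat.sq_diag_eq_sum hm]
  exact sum_add_sq_le Zp Zm a

theorem rowH_good_le (hp : Zp.IsSymm) (hm : Zm.IsSymm) {a : ι} (ha : a ∈ gd F Zp Zm) :
    ∑ b, (Zp a b + Zm a b) ^ 2 ≤ 16 := by
  have := rowH_le hp hm a
  obtain ⟨-, h1, h2⟩ := mem_gd.1 ha
  linarith

/-- `Σ_{a ∉ gd} (w_a⁺ + w_a⁻) ≤ (11/18) (V₊ + V₋)` -/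
theorem sum_bad_w_le :
    ∑ a ∈ F \ gd F Zp Zm, ((Zp ^ 2) a a + (Zm ^ 2) a a) ≤ 11 / 18 * (Vd F Zp + Vd F Zm) := by
  classical
  calc ∑ a ∈ F \ gd F Zp Zm, ((Zp ^ 2) a a + (Zm ^ 2) a a)
      ≤ ∑ a ∈ F \ gd F Zp Zm,
          11 / 18 * (((Zp ^ 2) a a - 1) ^ 2 + ((Zm ^ 2) a a - 1) ^ 2) := by
        refine Finset.sum_le_sum fun a ha => ?_
        rw [Finset.mem_sdiff, mem_gd] at ha
        obtain ⟨haF, hna⟩ := ha
        have h : ¬ ((Zp ^ 2) a a ≤ 4) ∨ ¬ ((Zm ^ 2) a a ≤ 4) := by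
          by_contra hcon
          rw [not_or, not_not, not_not] at hcon
          exact hna ⟨haF, hcon⟩
        rcases h with h | h
        · rw [not_le] at h
          nlinarith [sq_nonneg ((Zm ^ 2) a a - 1 - 9 / 11),
            mul_pos (sub_pos.2 h) (sub_pos.2 h)]
        · rw [not_le] at h
          nlinarith [sq_nonneg ((Zp ^ 2) a a - 1 - 9 / 11),
            mul_pos (sub_pos.2 h) (sub_pos.2 h)]
    _ = 11 / 18 * ∑ a ∈ F \ gd F Zp Zm, (((Zp ^ 2) a a - 1) ^ 2 + ((Zm ^ 2) a a - 1) ^ 2) := by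
        rw [Finset.mul_sum]
    _ ≤ 11 / 18 * ∑ a ∈ F, (((Zp ^ 2) a a - 1) ^ 2 + ((Zm ^ 2) a a - 1) ^ 2) := by
        refine mul_le_mul_of_nonneg_left ?_ (by norm_num)
        exact Finset.sum_le_sum_of_subset_of_nonneg Finset.sdiff_subset
          fun _ _ _ => add_nonneg (sq_nonneg _) (sq_nonneg _)
    _ = _ := by rw [Finset.sum_add_distrib]; rfl

/-- `Σ_{a ∉ gd} Σ_b H_ab² ≤ (11/9) (V₊ + V₋)` -/
theorem sum_bad_row_le (hp : Zp.IsSymm) (hm : Zm.IsSymm)
    (hFp : ∀ a, a ∉ F → ∀ b, Zp a b = 0) (hFm : ∀ a, a ∉ F → ∀ b, Zm a b = 0) :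
    ∑ a ∈ (gd F Zp Zm)ᶜ, ∑ b, (Zp a b + Zm a b) ^ 2 ≤ 11 / 9 * (Vd F Zp + Vd F Zm) := by
  classical
  have h1 : ∑ a ∈ (gd F Zp Zm)ᶜ, ∑ b, (Zp a b + Zm a b) ^ 2
      = ∑ a ∈ F \ gd F Zp Zm, ∑ b, (Zp a b + Zm a b) ^ 2 := by
    symm
    refine Finset.sum_subset ?_ ?_
    · intro a ha
      rw [Finset.mem_compl]
      exact (Finset.mem_sdiff.1 ha).2
    · intro a ha ha'
      rw [Finset.mem_compl] at ha
      rw [Finset.mem_sdiff, not_and, not_not] at ha'
      have haF : a ∉ F := fun h => ha (ha' h)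
      simp [hFp a haF, hFm a haF]
  rw [h1]
  calc _ ≤ ∑ a ∈ F \ gd F Zp Zm, 2 * ((Zp ^ 2) a a + (Zm ^ 2) a a) :=
        Finset.sum_le_sum fun a _ => rowH_le hp hm a
    _ = 2 * ∑ a ∈ F \ gd F Zp Zm, ((Zp ^ 2) a a + (Zm ^ 2) a a) := by rw [Finset.mul_sum]
    _ ≤ 2 * (11 / 18 * (Vd F Zp + Vd F Zm)) :=
        mul_le_mul_of_nonneg_left sum_bad_w_le (by norm_num)
    _ = _ := by ring

/-- `‖RT‖_F² ≤ (22/9) (V₊ + V₋)` -/
theorem frob_RT_le (hp : Zp.IsSymm) (hm : Zm.IsSymm)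
    (hFp : ∀ a, a ∉ F → ∀ b, Zp a b = 0) (hFm : ∀ a, a ∉ F → ∀ b, Zm a b = 0) :
    Mat.frob (RT F Zp Zm) ≤ 22 / 9 * (Vd F Zp + Vd F Zm) := by
  classical
  have h0 : ∀ a b, RT F Zp Zm a b ^ 2 ≤
      (if a ∈ (gd F Zp Zm)ᶜ then (Zp a b + Zm a b) ^ 2 else 0)
        + (if b ∈ (gd F Zp Zm)ᶜ then (Zp b a + Zm b a) ^ 2 else 0) := by
    intro a b
    have hsym : Zp b a + Zm b a = Zp a b + Zm a b := by rw [hp.apply a b, hm.apply a b]
    rw [hsym]
    unfold RT
    simp only [Finset.mem_compl]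
    have hn := sq_nonneg (Zp a b + Zm a b)
    by_cases h1 : a ∈ gd F Zp Zm <;> by_cases h2 : b ∈ gd F Zp Zm <;>
      simp only [h1, h2, and_self, and_true, and_false, if_true, if_false,
        not_true_eq_false, not_false_eq_true] <;> nlinarith
  have h1 := sum_bad_row_le hp hm hFp hFm
  calc Mat.frob (RT F Zp Zm)
      ≤ ∑ a, ∑ b, ((if a ∈ (gd F Zp Zm)ᶜ then (Zp a b + Zm a b) ^ 2 else 0)
        + (if b ∈ (gd F Zp Zm)ᶜ then (Zp b a + Zm b a) ^ 2 else 0)) := by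
        unfold Mat.frob
        exact Finset.sum_le_sum fun a _ => Finset.sum_le_sum fun b _ => h0 a b
    _ = ∑ a ∈ (gd F Zp Zm)ᶜ, ∑ b, (Zp a b + Zm a b) ^ 2
        + ∑ a ∈ (gd F Zp Zm)ᶜ, ∑ b, (Zp a b + Zm a b) ^ 2 := by
        simp only [Finset.sum_add_distrib]
        congr 1
        · rw [← Finset.sum_filter_add_sum_filter_not Finset.univ (fun a => a ∈ (gd F Zp Zm)ᶜ)]
          have e1 : ∑ a ∈ Finset.univ.filter (fun a => a ∉ (gd F Zp Zm)ᶜ),
              ∑ b, (if a ∈ (gd F Zp Zm)ᶜ then (Zp a b + Zm a b) ^ 2 else 0) = 0 := by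
            refine Finset.sum_eq_zero fun a ha => Finset.sum_eq_zero fun b _ => ?_
            rw [if_neg (Finset.mem_filter.1 ha).2]
          rw [e1, add_zero, Finset.filter_mem_eq_inter, Finset.univ_inter]
          refine Finset.sum_congr rfl fun a ha => Finset.sum_congr rfl fun b _ => ?_
          rw [if_pos ha]
        · rw [Finset.sum_comm,
            ← Finset.sum_filter_add_sum_filter_not Finset.univ (fun a => a ∈ (gd F Zp Zm)ᶜ)]
          have e1 : ∑ a ∈ Finset.univ.filter (fun a => a ∉ (gd F Zp Zm)ᶜ),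
              ∑ b, (if a ∈ (gd F Zp Zm)ᶜ then (Zp a b + Zm a b) ^ 2 else 0) = 0 := by
            refine Finset.sum_eq_zero fun a ha => Finset.sum_eq_zero fun b _ => ?_
            rw [if_neg (Finset.mem_filter.1 ha).2]
          rw [e1, add_zero, Finset.filter_mem_eq_inter, Finset.univ_inter]
          refine Finset.sum_congr rfl fun a ha => Finset.sum_congr rfl fun b _ => ?_
          rw [if_pos ha]
    _ ≤ _ := by linarith

end Vale.Agent.P049.TS.Tilt
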