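import Vale.Agent.P049.TS.Tilt.Trace

/-!
Coordinate projections, `RT` in terms of projections, diagonal sums of products.
-/

set_option linter.unusedSectionVars false

namespace Vale.Agent.P049.TS.Tilt

open Matrix Finset

variable {ι : Type*} [Fintype ι] [DecidableEq ι]

/-- the coordinate projection -/
def prj (S : Finset ι) : Matrix ι ι ℝ := Matrix.diagonal fun a => if a ∈ S then 1 else 0

theorem prj_isSymm (S : Finset ι) : (prj S).IsSymm := Matrix.diagonal_transpose _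

theorem prj_mul_apply (S : Finset ι) (M : Matrix ι ι ℝ) (a b : ι) :
    (prj S * M) a b = if a ∈ S then M a b else 0 := by
  unfold prj
  rw [Matrix.diagonal_mul]
  split_ifs <;> simp

theorem mul_prj_apply (S : Finset ι) (M : Matrix ι ι ℝ) (a b : ι) :
    (M * prj S) a b = if b ∈ S then M a b else 0 := by
  unfold prj
  rw [Matrix.mul_diagonal]
  split_ifs <;> simp

theorem prj_mul_prj (S : Finset ι) : prj S * prj S = prj S := by
  unfold prj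
  rw [Matrix.diagonal_mul_diagonal]
  congr 1
  funext a
  split_ifs <;> simp

theorem opB_prj (S : Finset ι) : Mat.OpB (prj S) 1 := by
  intro v
  unfold prj
  simp only [Matrix.mulVec_diagonal, dotProduct, one_pow, one_mul]
  refine Finset.sum_le_sum fun a _ => ?_
  split_ifs
  · simp
  · simp [mul_self_nonneg]

theorem frob_prj_mul (S : Finset ι) (M : Matrix ι ι ℝ) :
    Mat.frob (prj S * M) = ∑ a ∈ S, ∑ b, M a b ^ 2 := by
  unfold Mat.frob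
  simp only [prj_mul_apply]
  rw [← Finset.sum_filter_add_sum_filter_not Finset.univ (fun a => a ∈ S)]
  have e1 : ∑ a ∈ Finset.univ.filter (fun a => a ∉ S), ∑ b, (if a ∈ S then M a b else 0) ^ 2
      = 0 := by
    refine Finset.sum_eq_zero fun a ha => Finset.sum_eq_zero fun b _ => ?_
    rw [if_neg (Finset.mem_filter.1 ha).2]; norm_num
  rw [e1, add_zero, Finset.filter_mem_eq_inter, Finset.univ_inter]
  refine Finset.sum_congr rfl fun a ha => Finset.sum_congr rfl fun b _ => ?_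
  rw [if_pos ha]

theorem frob_mul_prj {M : Matrix ι ι ℝ} (hM : M.IsSymm) (S : Finset ι) :
    Mat.frob (M * prj S) = ∑ a ∈ S, ∑ b, M a b ^ 2 := by
  rw [← Mat.frob_transpose, Matrix.transpose_mul, (prj_isSymm S).eq, hM.eq, frob_prj_mul]

theorem RT_eq (F : Finset ι) (Zp Zm : Matrix ι ι ℝ) :
    RT F Zp Zm = prj (gd F Zp Zm)ᶜ * (Zp + Zm)
      + prj (gd F Zp Zm) * (Zp + Zm) * prj (gd F Zp Zm)ᶜ := by
  ext a b
  rw [Matrix.add_apply, prj_mul_apply, mul_prj_apply, prj_mul_apply]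
  by_cases h1 : a ∈ gd F Zp Zm <;> by_cases h2 : b ∈ gd F Zp Zm <;>
    simp [RT, h1, h2]

/-! ### diagonal sums -/

/-- `|(M N)_cc| ≤ ‖row_c M‖ ‖col_c N‖` -/
theorem abs_diag_mul_le (M N : Matrix ι ι ℝ) (c : ι) :
    |(M * N) c c| ≤ √(∑ j, M c j ^ 2) * √(∑ j, N j c ^ 2) := by
  rw [Matrix.mul_apply]
  refine (Finset.abs_sum_le_sum_abs _ _).trans ?_
  simp only [abs_mul]
  exact sum_abs_mul_le Finset.univ (fun j => M c j) (fun j => N j c)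

/-- `Σ_c |(M N)_cc| ≤ ‖M‖_F ‖N‖_F` -/
theorem sum_abs_diag_mul_le (M N : Matrix ι ι ℝ) (S : Finset ι) {x y : ℝ} (hx : 0 ≤ x)
    (hy : 0 ≤ y) (hM : Mat.frob M ≤ x ^ 2) (hN : Mat.frob N ≤ y ^ 2) :
    ∑ c ∈ S, |(M * N) c c| ≤ x * y := by
  have h1 : ∑ c ∈ S, |(M * N) c c| ≤ ∑ c, √(∑ j, M c j ^ 2) * √(∑ j, N j c ^ 2) :=
    (Finset.sum_le_sum fun c _ => abs_diag_mul_le M N c).trans
      (Finset.sum_le_sum_of_subset_of_nonneg (Finset.subset_univ S)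
        fun _ _ _ => mul_nonneg (Real.sqrt_nonneg _) (Real.sqrt_nonneg _))
  refine h1.trans ?_
  have h2 := Finset.sum_mul_sq_le_sq_mul_sq Finset.univ (fun c => √(∑ j, M c j ^ 2))
    (fun c => √(∑ j, N j c ^ 2))
  have e1 : ∀ c, √(∑ j, M c j ^ 2) ^ 2 = ∑ j, M c j ^ 2 := fun c =>
    Real.sq_sqrt (Finset.sum_nonneg fun _ _ => sq_nonneg _)
  have e2 : ∀ c, √(∑ j, N j c ^ 2) ^ 2 = ∑ j, N j c ^ 2 := fun c =>
    Real.sq_sqrt (Finset.sum_nonneg fun _ _ => sq_nonneg _)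
  simp only [e1, e2] at h2
  have e3 : ∑ c, ∑ j, N j c ^ 2 = Mat.frob N := by
    unfold Mat.frob; rw [Finset.sum_comm]
  have e4 : ∑ c, ∑ j, M c j ^ 2 = Mat.frob M := rfl
  rw [e3, e4] at h2
  have h3 : (∑ c, √(∑ j, M c j ^ 2) * √(∑ j, N j c ^ 2)) ^ 2 ≤ (x * y) ^ 2 := by
    refine h2.trans ?_
    rw [mul_pow]
    exact mul_le_mul hM hN (Mat.frob_nonneg _) (sq_nonneg x)
  exact abs_le_of_sq_le_sq' h3 (mul_nonneg hx hy) |>.2

/-- the column of `Z²` in terms of `w` -/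
theorem sum_col_sq_le {Z : Matrix ι ι ℝ} (hZ : Z.IsSymm) {b : ℝ} (hb : Mat.OpB Z b) (c : ι) :
    ∑ j, (Z ^ 2) j c ^ 2 ≤ b ^ 2 * (Z ^ 2) c c := by
  have h1 := hb.row_pow_le hZ 1 1 c
  have e1 : ∑ j, (Z ^ 2) j c ^ 2 = ∑ j, (Z ^ (1 + 1)) c j ^ 2 := by
    refine Finset.sum_congr rfl fun j _ => ?_
    rw [(Mat.IsSymm_pow hZ 2).apply c j]
  rw [e1]
  refine h1.trans (le_of_eq ?_)
  rw [pow_one, Mat.sq_diag_eq_sum hZ]

/-- `|(Z E Z)_cc|` for an operator bound of `E` -/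
theorem OpB.abs_diag_one {Z E : Matrix ι ι ℝ} (hZ : Z.IsSymm) {r : ℝ} (hr : 0 ≤ r)
    (hE : Mat.OpB E r) (c : ι) : |(Z * E * Z) c c| ≤ r * (Z ^ 2) c c := by
  have e : (Z * E * Z) c c
      = (Z *ᵥ (Pi.single c 1)) ⬝ᵥ (E *ᵥ (Z *ᵥ (Pi.single c 1))) := by
    rw [Mat.entry_eq (Z * E * Z) c c, Mat.symm_dot hZ, Matrix.mulVec_mulVec,
      Matrix.mulVec_mulVec, Matrix.mul_assoc]
  rw [e, Mat.sq_diag_eq_dot hZ c]
  exact hE.quad_le hr _

/-- `|(Z E Z²)_cc|` for an operator bound of `E` -/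
theorem OpB.abs_diag_two {Z E : Matrix ι ι ℝ} (hZ : Z.IsSymm) {b r : ℝ} (hb0 : 0 ≤ b)
    (hb : Mat.OpB Z b) (hr : 0 ≤ r) (hE : Mat.OpB E r) (c : ι) :
    |(Z * E * Z ^ 2) c c| ≤ r * b * (Z ^ 2) c c := by
  have e : (Z * E * Z ^ 2) c c
      = (Z *ᵥ (Pi.single c 1)) ⬝ᵥ (E *ᵥ (Z *ᵥ (Z *ᵥ (Pi.single c 1)))) := by
    rw [Mat.entry_eq (Z * E * Z ^ 2) c c, Mat.symm_dot hZ, Matrix.mulVec_mulVec,
      Matrix.mulVec_mulVec, Matrix.mulVec_mulVec, Matrix.mul_assoc, sq]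
    simp only [Matrix.mul_assoc]
  have h1 := hE.abs_bilin_le hr (Z *ᵥ (Pi.single c 1)) (Z *ᵥ (Z *ᵥ (Pi.single c 1)))
  have h2 := hb.sqrt_dot_le hb0 (Z *ᵥ (Pi.single c 1))
  rw [e, Mat.sq_diag_eq_dot hZ c]
  set u := Z *ᵥ (Pi.single c (1 : ℝ)) with hu
  have h3 := Real.mul_self_sqrt (Mat.dot_self_nonneg u)
  calc _ ≤ _ := h1
    _ ≤ r * (√(u ⬝ᵥ u) * (b * √(u ⬝ᵥ u))) :=
        mul_le_mul_of_nonneg_left (mul_le_mul_of_nonneg_left h2 (Real.sqrt_nonneg _)) hr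
    _ = r * b * (√(u ⬝ᵥ u) * √(u ⬝ᵥ u)) := by ring
    _ = _ := by rw [h3]

theorem opB_add {A B : Matrix ι ι ℝ} {b : ℝ} (hA : Mat.OpB A b) (hB : Mat.OpB B b) :
    Mat.OpB (A + B) (2 * b) := by
  intro v
  rw [Matrix.add_mulVec]
  have h1 := hA v
  have h2 := hB v
  have h3 := Mat.dot_self_nonneg (A *ᵥ v - B *ᵥ v)
  simp only [dotProduct_add, add_dotProduct, dotProduct_sub, sub_dotProduct] at h3 ⊢
  nlinarith

section

variable {F : Finset ι} {forb : ι → ι → Prop} {Zp Zm Z Z' : Matrix ι ι ℝ}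
  {lam b t s v cw Δ : ℝ}

theorem Two.opB (h : Two F Zp Zm b t s v cw) (hP : IsPair Zp Zm Z Z') : Mat.OpB Z b :=
  (h.one hP).opB

theorem Two.opB_H (h : Two F Zp Zm b t s v cw) : Mat.OpB (Zp + Zm) (2 * b) :=
  opB_add h.p.opB h.m.opB

theorem Two.opB_R (h : Two F Zp Zm b t s v cw) : Mat.OpB (RT F Zp Zm) (9 / 4 * v) :=
  Mat.opB_of_frob h.frobR

/-- `Σ_{a ∉ gd} w_a ≤ (10/9 v)²` -/
theorem Two.sum_bad_w (h : Two F Zp Zm b t s v cw) (hP : IsPair Zp Zm Z Z') :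
    ∑ a ∈ (gd F Zp Zm)ᶜ, ∑ b, Z a b ^ 2 ≤ (10 / 9 * v) ^ 2 := by
  classical
  have hone := h.one hP
  have h1 : ∑ a ∈ (gd F Zp Zm)ᶜ, ∑ b, Z a b ^ 2
      = ∑ a ∈ F \ gd F Zp Zm, ∑ b, Z a b ^ 2 := by
    symm
    refine Finset.sum_subset ?_ ?_
    · intro a ha
      rw [Finset.mem_compl]
      exact (Finset.mem_sdiff.1 ha).2
    · intro a ha ha'
      rw [Finset.mem_compl] at ha
      rw [Finset.mem_sdiff, not_and, not_not] at ha'
      have haF : a ∉ F := fun h => ha (ha' h)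
      simp [hone.supp a haF]
  rw [h1]
  have h2 : ∑ a ∈ F \ gd F Zp Zm, ∑ b, Z a b ^ 2
      ≤ ∑ a ∈ F \ gd F Zp Zm, ((Zp ^ 2) a a + (Zm ^ 2) a a) := by
    refine Finset.sum_le_sum fun a _ => ?_
    rw [← Mat.sq_diag_eq_sum hone.symm]
    have hp := Mat.sq_diag_nonneg h.p.symm a
    have hm := Mat.sq_diag_nonneg h.m.symm a
    rcases hP with ⟨rfl, rfl⟩ | ⟨rfl, rfl⟩ <;> linarith
  have h3 := sum_bad_w_le (F := F) (Zp := Zp) (Zm := Zm)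
  have h4 := h.p.V
  have h5 := h.m.V
  nlinarith [sq_nonneg v]

/-- `Σ_{a ∉ gd} Σ_b H_ab² ≤ (25/16 v)²` -/
theorem Two.sum_bad_H (h : Two F Zp Zm b t s v cw) :
    ∑ a ∈ (gd F Zp Zm)ᶜ, ∑ b, (Zp + Zm) a b ^ 2 ≤ (63 / 40 * v) ^ 2 := by
  have h1 := sum_bad_row_le h.p.symm h.m.symm h.p.supp h.m.supp
  have h4 := h.p.V
  have h5 := h.m.V
  simp only [Matrix.add_apply]
  nlinarith [sq_nonneg v]

end

end Vale.Agent.P049.TS.Tilt
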