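import Vale.Agent.P049.TS.Tilt.Defs

/-!
The absolute row sums of the heavy / non-admissible part `eT` of the tilt.
-/

set_option linter.unusedSectionVars false

namespace Vale.Agent.P049.TS.Tilt

open Matrix Finset

variable {ι : Type*} [Fintype ι] [DecidableEq ι]
variable {F : Finset ι} {forb : ι → ι → Prop} {Zp Zm : Matrix ι ι ℝ} {lam : ℝ}

/-- the bound for the absolute row sums of `eT` -/
def rb (lam Δ Sp Sm : ℝ) : ℝ := 32 * lam ^ 2 + (4 * (1 + Δ) + 128 + 32 * (Sp + Sm)) * lam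

theorem eT_apply (a b : ι) : eT F forb Zp Zm lam a b
    = lam * (Zp a b + Zm a b - RT F Zp Zm a b) - hT F forb Zp Zm lam a b := by
  unfold eT
  rw [Matrix.sub_apply, Matrix.smul_apply, Matrix.sub_apply, Matrix.add_apply, smul_eq_mul]

theorem RT_apply_bad {a b : ι} (h : ¬ (a ∈ gd F Zp Zm ∧ b ∈ gd F Zp Zm)) :
    RT F Zp Zm a b = Zp a b + Zm a b := by
  unfold RT
  exact if_neg h

theorem RT_apply_good {a b : ι} (h : a ∈ gd F Zp Zm ∧ b ∈ gd F Zp Zm) :
    RT F Zp Zm a b = 0 := by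
  unfold RT
  exact if_pos h

theorem hT_apply_bad {a b : ι} (h : ¬ (a ∈ gd F Zp Zm ∧ b ∈ gd F Zp Zm)) :
    hT F forb Zp Zm lam a b = 0 := by
  unfold hT
  exact if_neg fun h' => h h'.2

theorem eT_apply_bad {a b : ι} (h : ¬ (a ∈ gd F Zp Zm ∧ b ∈ gd F Zp Zm)) :
    eT F forb Zp Zm lam a b = 0 := by
  rw [eT_apply, RT_apply_bad h, hT_apply_bad h]
  ring

theorem eT_apply_good {a b : ι} (h : a ∈ gd F Zp Zm ∧ b ∈ gd F Zp Zm) :
    eT F forb Zp Zm lam a b
      = lam * (Zp a b + Zm a b) - hT F forb Zp Zm lam a b := by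
  rw [eT_apply, RT_apply_good h]
  ring

/-- the pointwise bound of the error matrix -/
theorem abs_eT_le (hl : 0 < lam) (a b : ι) [∀ x y, Decidable (forb x y)] :
    |eT F forb Zp Zm lam a b| ≤
      if a ∈ gd F Zp Zm ∧ b ∈ gd F Zp Zm then
        2 * lam ^ 2 * (Zp a b + Zm a b) ^ 2
        + (if a = b then lam * |Zp a b + Zm a b| else 0)
        + (if forb a b then lam * |Zp a b + Zm a b| else 0)
        + 8 * lam * (|Zp a b| * |Zp a b + Zm a b|)
        + 8 * lam * |Zp a a| * (|Zp b b| * |Zp a b + Zm a b|)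
        + 8 * lam * (|Zm a b| * |Zp a b + Zm a b|)
        + 8 * lam * |Zm a a| * (|Zm b b| * |Zp a b + Zm a b|)
      else 0 := by
  classical
  split_ifs with hG h2 h3 h3
  all_goals try (rw [eT_apply_bad hG, abs_zero])
  all_goals rw [eT_apply_good hG]
  all_goals
    set x := Zp a b + Zm a b with hx
    have hx0 := abs_nonneg x
    have hlx : 0 ≤ lam * |x| := by positivity
    have q1 : 0 ≤ 2 * lam ^ 2 * x ^ 2 := by positivity
    have q2 : 0 ≤ 8 * lam * (|Zp a b| * |x|) := by positivity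
    have q3 : 0 ≤ 8 * lam * |Zp a a| * (|Zp b b| * |x|) := by positivity
    have q4 : 0 ≤ 8 * lam * (|Zm a b| * |x|) := by positivity
    have q5 : 0 ≤ 8 * lam * |Zm a a| * (|Zm b b| * |x|) := by positivity
    have hle : |lam * x - hT F forb Zp Zm lam a b| ≤ lam * |x| := by
      unfold hT
      split_ifs with hA
      · rw [← mul_sub, abs_mul, abs_of_pos hl]
        exact mul_le_mul_of_nonneg_left (abs_sub_clip_le (by positivity) _) hl.le
      · rw [sub_zero, abs_mul, abs_of_pos hl]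
  · linarith
  · linarith
  · linarith
  · -- `a ≠ b`, not forbidden
    by_cases hA : (a, b) ∈ adm F forb Zp Zm
    · by_cases hh : |x| ≤ 1 / (2 * lam)
      · have h0 : hT F forb Zp Zm lam a b = lam * x := by
          unfold hT
          rw [if_pos ⟨hA, hG⟩, ← hx, clip_of_abs_le hh]
        rw [h0, sub_self, abs_zero]
        linarith
      · rw [not_le, div_lt_iff₀ (by positivity)] at hh
        have : lam * |x| ≤ 2 * lam ^ 2 * x ^ 2 := by
          rw [← sq_abs x]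
          nlinarith [mul_nonneg hl.le hx0]
        linarith
    · -- not admissible, so one of the pair conditions fails
      rw [mem_adm] at hA
      have haF := (mem_gd.1 hG.1).1
      have hbF := (mem_gd.1 hG.2).1
      have hn : ¬ PairOK Zp a b ∨ ¬ PairOK Zm a b := by
        by_contra hcon
        rw [not_or, not_not, not_not] at hcon
        exact hA ⟨⟨haF, hbF⟩, h2, h3, hcon.1, hcon.2⟩
      have key : ∀ Z : Matrix ι ι ℝ, ¬ PairOK Z a b →
          lam * |x| ≤ 8 * lam * (|Z a b| * |x|) + 8 * lam * |Z a a| * (|Z b b| * |x|) := by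
        intro Z hZ
        unfold PairOK at hZ
        rw [not_and_or, not_le, not_le] at hZ
        have p2 : 0 ≤ 8 * lam * (|Z a b| * |x|) := by positivity
        have p3 : 0 ≤ 8 * lam * |Z a a| * (|Z b b| * |x|) := by positivity
        rcases hZ with hZ | hZ
        · have : lam * |x| ≤ 8 * lam * (|Z a b| * |x|) := by nlinarith
          linarith
        · rw [abs_mul] at hZ
          have : lam * |x| ≤ 8 * lam * |Z a a| * (|Z b b| * |x|) := by nlinarith
          linarith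
      rcases hn with hn | hn
      · have := key Zp hn; linarith
      · have := key Zm hn; linarith

/-- `Σ_b |Z_ab| |H_ab| ≤ 8` on good rows -/
theorem sum_mul_H_le (hp : Zp.IsSymm) (hm : Zm.IsSymm) {a : ι} (ha : a ∈ gd F Zp Zm)
    (f : ι → ℝ) {c : ℝ} (hc : 0 ≤ c) (hf : ∑ b, f b ^ 2 ≤ c ^ 2) :
    ∑ b, |f b| * |Zp a b + Zm a b| ≤ 4 * c := by
  have h := sum_abs_mul_le Finset.univ f (fun b => Zp a b + Zm a b)
  refine h.trans ?_
  have h1 : √(∑ b, f b ^ 2) ≤ c := by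
    rw [← Real.sqrt_sq hc]; exact Real.sqrt_le_sqrt hf
  have h2 : √(∑ b, (Zp a b + Zm a b) ^ 2) ≤ 4 := by
    rw [show (4 : ℝ) = √(4 ^ 2) by rw [Real.sqrt_sq (by norm_num)]]
    refine Real.sqrt_le_sqrt ((rowH_good_le hp hm ha).trans ?_)
    norm_num
  calc _ ≤ c * 4 := mul_le_mul h1 h2 (Real.sqrt_nonneg _) hc
    _ = _ := by ring

theorem abs_H_le (hp : Zp.IsSymm) (hm : Zm.IsSymm) {a : ι} (ha : a ∈ gd F Zp Zm) (b : ι) :
    |Zp a b + Zm a b| ≤ 4 := by
  have h1 : (Zp a b + Zm a b) ^ 2 ≤ 16 :=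
    (Finset.single_le_sum (f := fun b => (Zp a b + Zm a b) ^ 2)
      (fun _ _ => sq_nonneg _) (Finset.mem_univ b)).trans (rowH_good_le hp hm ha)
  rw [← Real.sqrt_sq_eq_abs]
  refine (Real.sqrt_le_sqrt h1).trans ?_
  rw [show (16 : ℝ) = 4 ^ 2 by norm_num, Real.sqrt_sq (by norm_num)]

theorem diag_le_sqrt_Sd (F : Finset ι) (Z : Matrix ι ι ℝ) {a : ι} (ha : a ∈ F) :
    |Z a a| ≤ √(Sd F Z) :=
  Real.abs_le_sqrt (Finset.single_le_sum (f := fun a => Z a a ^ 2)
    (fun _ _ => sq_nonneg _) ha)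

/-- the absolute row sums of `eT` are at most `rb` -/
theorem rowSum_eT_le (hl : 0 < lam) (hp : Zp.IsSymm) (hm : Zm.IsSymm) {Δ : ℝ} (hΔ : 0 ≤ Δ)
    [∀ x y, Decidable (forb x y)]
    (hforb : ∀ a ∈ F, ((F.filter fun b => forb a b).card : ℝ) ≤ Δ) (a : ι) :
    ∑ b, |eT F forb Zp Zm lam a b| ≤ rb lam Δ (Sd F Zp) (Sd F Zm) := by
  classical
  have hSp := Sd_nonneg F Zp
  have hSm := Sd_nonneg F Zm
  by_cases ha : a ∈ gd F Zp Zm
  swap
  · have e0 : ∑ b, |eT F forb Zp Zm lam a b| = 0 := by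
      refine Finset.sum_eq_zero fun b _ => ?_
      rw [eT_apply_bad (fun h => ha h.1), abs_zero]
    rw [e0]
    unfold rb
    positivity
  have haF := (mem_gd.1 ha).1
  have haw := mem_gd.1 ha
  -- sum of the pointwise bounds
  have h1 : ∑ b, |eT F forb Zp Zm lam a b| ≤ ∑ b ∈ gd F Zp Zm,
      (2 * lam ^ 2 * (Zp a b + Zm a b) ^ 2
        + (if a = b then lam * |Zp a b + Zm a b| else 0)
        + (if forb a b then lam * |Zp a b + Zm a b| else 0)
        + 8 * lam * (|Zp a b| * |Zp a b + Zm a b|)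
        + 8 * lam * |Zp a a| * (|Zp b b| * |Zp a b + Zm a b|)
        + 8 * lam * (|Zm a b| * |Zp a b + Zm a b|)
        + 8 * lam * |Zm a a| * (|Zm b b| * |Zp a b + Zm a b|)) := by
    calc _ ≤ ∑ b, _ := Finset.sum_le_sum fun b _ => abs_eT_le hl a b
      _ = _ := by
        simp only [ha, true_and]
        rw [Finset.sum_ite_mem, Finset.univ_inter]
  refine h1.trans ?_
  simp only [Finset.sum_add_distrib, ← Finset.mul_sum]
  have t1 : ∑ b ∈ gd F Zp Zm, (Zp a b + Zm a b) ^ 2 ≤ 16 :=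
    (Finset.sum_le_sum_of_subset_of_nonneg (Finset.subset_univ _)
      fun _ _ _ => sq_nonneg _).trans (rowH_good_le hp hm ha)
  have t2 : ∑ b ∈ gd F Zp Zm, (if a = b then lam * |Zp a b + Zm a b| else 0) ≤ 4 * lam := by
    rw [Finset.sum_ite_eq, if_pos ha]
    nlinarith [abs_H_le hp hm ha a]
  have t3 : ∑ b ∈ gd F Zp Zm, (if forb a b then lam * |Zp a b + Zm a b| else 0)
      ≤ 4 * Δ * lam := by
    rw [← Finset.sum_filter]
    calc _ ≤ ∑ b ∈ (gd F Zp Zm).filter (fun b => forb a b), 4 * lam :=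
          Finset.sum_le_sum fun b _ => by nlinarith [abs_H_le hp hm ha b]
      _ = (((gd F Zp Zm).filter (fun b => forb a b)).card : ℝ) * (4 * lam) := by
          rw [Finset.sum_const, nsmul_eq_mul]
      _ ≤ Δ * (4 * lam) := by
          refine mul_le_mul_of_nonneg_right (le_trans ?_ (hforb a haF)) (by positivity)
          refine Nat.cast_le.2 (Finset.card_le_card ?_)
          intro b hb
          rw [Finset.mem_filter] at hb ⊢
          exact ⟨(mem_gd.1 hb.1).1, hb.2⟩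
      _ = _ := by ring
  have t4 : ∀ Z : Matrix ι ι ℝ, Z.IsSymm → (Z ^ 2) a a ≤ 4 →
      ∑ b ∈ gd F Zp Zm, |Z a b| * |Zp a b + Zm a b| ≤ 8 := by
    intro Z hZ hw
    refine (Finset.sum_le_sum_of_subset_of_nonneg (Finset.subset_univ _)
      fun _ _ _ => mul_nonneg (abs_nonneg _) (abs_nonneg _)).trans ?_
    have := sum_mul_H_le hp hm ha (fun b => Z a b) (c := 2) (by norm_num)
      (by rw [← Mat.sq_diag_eq_sum hZ]; linarith)
    linarith
  have t5 : ∀ Z : Matrix ι ι ℝ,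
      ∑ b ∈ gd F Zp Zm, |Z b b| * |Zp a b + Zm a b| ≤ 4 * √(Sd F Z) := by
    intro Z
    have h := sum_mul_H_le hp hm ha (fun b => if b ∈ F then Z b b else 0) (c := √(Sd F Z))
      (Real.sqrt_nonneg _) (by
        rw [Real.sq_sqrt (Sd_nonneg F Z)]
        unfold Sd
        rw [← Finset.sum_filter_add_sum_filter_not Finset.univ (fun b => b ∈ F)]
        have e1 : ∑ b ∈ Finset.univ.filter (fun b => b ∉ F), (if b ∈ F then Z b b else 0) ^ 2
            = 0 := by
          refine Finset.sum_eq_zero fun b hb => ?_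
          rw [if_neg (Finset.mem_filter.1 hb).2]; norm_num
        rw [e1, add_zero, Finset.filter_mem_eq_inter, Finset.univ_inter]
        refine le_of_eq (Finset.sum_congr rfl fun b hb => ?_)
        rw [if_pos hb])
    refine le_trans ?_ h
    calc ∑ b ∈ gd F Zp Zm, |Z b b| * |Zp a b + Zm a b|
        = ∑ b ∈ gd F Zp Zm, |if b ∈ F then Z b b else 0| * |Zp a b + Zm a b| := by
          refine Finset.sum_congr rfl fun b hb => ?_
          rw [if_pos (mem_gd.1 hb).1]
      _ ≤ _ := Finset.sum_le_sum_of_subset_of_nonneg (Finset.subset_univ _)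
          fun _ _ _ => mul_nonneg (abs_nonneg _) (abs_nonneg _)
  have d5 : ∀ Z : Matrix ι ι ℝ,
      8 * lam * |Z a a| * ∑ b ∈ gd F Zp Zm, |Z b b| * |Zp a b + Zm a b|
        ≤ 32 * Sd F Z * lam := by
    intro Z
    have h1 := diag_le_sqrt_Sd F Z haF
    have h2 := t5 Z
    have hs := Real.sqrt_nonneg (Sd F Z)
    have hs2 := Real.mul_self_sqrt (Sd_nonneg F Z)
    calc _ ≤ 8 * lam * √(Sd F Z) * (4 * √(Sd F Z)) := by
          refine mul_le_mul ?_ h2 ?_ (by positivity)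
          · exact mul_le_mul_of_nonneg_left h1 (by positivity)
          · exact Finset.sum_nonneg fun _ _ => mul_nonneg (abs_nonneg _) (abs_nonneg _)
      _ = 32 * (√(Sd F Z) * √(Sd F Z)) * lam := by ring
      _ = _ := by rw [hs2]
  have u1 := t4 Zp hp haw.2.1
  have u2 := t4 Zm hm haw.2.2
  have u3 := d5 Zp
  have u4 := d5 Zm
  have l2 : 2 * lam ^ 2 * ∑ b ∈ gd F Zp Zm, (Zp a b + Zm a b) ^ 2 ≤ 32 * lam ^ 2 := by
    nlinarith [sq_nonneg lam]
  have l4 : 8 * lam * ∑ b ∈ gd F Zp Zm, |Zp a b| * |Zp a b + Zm a b| ≤ 64 * lam := by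
    nlinarith
  have l5 : 8 * lam * ∑ b ∈ gd F Zp Zm, |Zm a b| * |Zp a b + Zm a b| ≤ 64 * lam := by
    nlinarith
  unfold rb
  linarith

/-- the operator norm of `eT` -/
theorem opB_eT (hl : 0 < lam) (hp : Zp.IsSymm) (hm : Zm.IsSymm)
    (hf : ∀ a b, forb a b → forb b a) {Δ : ℝ} (hΔ : 0 ≤ Δ) [∀ x y, Decidable (forb x y)]
    (hforb : ∀ a ∈ F, ((F.filter fun b => forb a b).card : ℝ) ≤ Δ) :
    Mat.OpB (eT F forb Zp Zm lam) (rb lam Δ (Sd F Zp) (Sd F Zm)) :=
  opB_of_rowSum (eT_isSymm hp hm hf) (rowSum_eT_le hl hp hm hΔ hforb)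

theorem rb_nonneg {lam Δ Sp Sm : ℝ} (hl : 0 ≤ lam) (hΔ : 0 ≤ Δ) (hSp : 0 ≤ Sp) (hSm : 0 ≤ Sm) :
    0 ≤ rb lam Δ Sp Sm := by
  unfold rb; positivity

end Vale.Agent.P049.TS.Tilt
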